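import Vale.Agent.P167.FKA.Basic
import Vale.Agent.P167.H704.Rc

/-!
# P167, the range `0 < q < 1`: finitely many crossings of one colour

Definitions for `crs_ge`.
-/

namespace Vale.Agent.P167.N

open Finset Vale.Agent.P167 Vale.Agent.P167.FK Vale.Agent.P167.FKA Vale.Agent.P167.H632
  Vale.Agent.P167.H704 Vale.Agent.P167.H871

/-- A crossing: the direction (`true` = horizontal) and the rectangle `[a, b] × [p, q]`. -/
structure Crs where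
  /-- horizontal -/
  d : Bool
  /-- left side -/
  a : ℤ
  /-- right side -/
  b : ℤ
  /-- lower side -/
  p : ℤ
  /-- upper side -/
  q : ℤ
  deriving DecidableEq

/-- The rectangle is crossed by the colour `e`. -/
def Crs.Ev (e : Bool) (X : Crs) : Set Cfg :=
  if X.d then Hc e X.a X.b X.p X.q else Vc e X.a X.b X.p X.q

@[simp] theorem Crs.Ev_H (e : Bool) (a b p q : ℤ) : (Crs.mk true a b p q).Ev e = Hc e a b p q := rfl

@[simp] theorem Crs.Ev_V (e : Bool) (a b p q : ℤ) : (Crs.mk false a b p q).Ev e = Vc e a b p q :=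
  rfl

/-- The width is at least `s`, the length at most `κ s` (may be small), the squares belong to `D`. -/
def Crs.Ok (s : ℤ) (κ : ℕ) (D : Finset (ℤ × ℤ)) (X : Crs) : Prop :=
  X.a ≤ X.b ∧ X.p ≤ X.q ∧
    (if X.d then s ≤ X.q - X.p ∧ X.b - X.a ≤ κ * s else s ≤ X.b - X.a ∧ X.q - X.p ≤ κ * s) ∧
    ∀ v : ℤ × ℤ, X.a ≤ v.1 → v.1 < X.b → X.p ≤ v.2 → v.2 < X.q → v ∈ D

theorem Crs.ok_H {s : ℤ} {κ : ℕ} {D : Finset (ℤ × ℤ)} {a b p q : ℤ} (hab : a ≤ b) (hpq : p ≤ q)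
    (h1 : s ≤ q - p) (h2 : b - a ≤ κ * s)
    (h : ∀ v : ℤ × ℤ, a ≤ v.1 → v.1 < b → p ≤ v.2 → v.2 < q → v ∈ D) :
    (Crs.mk true a b p q).Ok s κ D := ⟨hab, hpq, by rw [if_pos rfl]; exact ⟨h1, h2⟩, h⟩

theorem Crs.ok_V {s : ℤ} {κ : ℕ} {D : Finset (ℤ × ℤ)} {a b p q : ℤ} (hab : a ≤ b) (hpq : p ≤ q)
    (h1 : s ≤ b - a) (h2 : q - p ≤ κ * s)
    (h : ∀ v : ℤ × ℤ, a ≤ v.1 → v.1 < b → p ≤ v.2 → v.2 < q → v ∈ D) :
    (Crs.mk false a b p q).Ok s κ D := ⟨hab, hpq, by rw [if_neg (by simp)]; exact ⟨h1, h2⟩, h⟩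

end Vale.Agent.P167.N
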