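import Vale.Agent.P167.H990.VrB
import Vale.Agent.P167.H366.Step2

/-!
# P167, the range `0 < q < 1`: crossings of rectangles, worst case
-/

namespace Vale.Agent.P167.N

/-- Crossings of rectangles when the outside has the colour of the crossing (form of block RSW). -/
theorem vr816 {Q : ℝ} (hQ : 0 < Q) (hQ1 : Q < 1) : Vale.Agent.P167.H816.VR Q :=
  Vale.Agent.P167.H366.vr hQ hQ1

/-- Crossings of rectangles when the outside has the colour of the crossing. -/
theorem vrt {Q : ℝ} (hQ : 0 < Q) (hQ1 : Q < 1) : Vale.Agent.P167.H990.VRt Q :=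
  Vale.Agent.P167.H990.vrt_of_vr hQ hQ1.le (vr816 hQ hQ1)

end Vale.Agent.P167.N
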