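import Vale.Agent.P167.N.Kit
import Vale.Agent.P167.N.Base.VR
import Vale.Agent.P167.H990.Fin

/-!
# P167, the range `0 < q < 1`: finitely many crossings of one colour

`crs_ge` replaces positive association for lower bounds: any finite family of crossings of rectangles
(overlapping in any way) by one colour occurs simultaneously with a probability bounded below, for
all configurations outside of the domain.
-/

namespace Vale.Agent.P167.N

open Finset Vale.Agent.P167 Vale.Agent.P167.FK Vale.Agent.P167.FKA Vale.Agent.P167.H632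
  Vale.Agent.P167.H704 Vale.Agent.P167.H871

/-- **Crossings of one colour, without positive association.** At most `n` crossings of rectangles of
comparable size inside of `D`, overlapping in any way, any configuration outside of `D`. -/
theorem crs_ge {Q : ℝ} (K : Kit Q) (n κ : ℕ) : ∃ (c : ℝ) (s0 : ℤ), 0 < c ∧ c ≤ 1 ∧ 1 ≤ s0 ∧
    ∀ (e : Bool) (s : ℤ) (L : List Crs) (D : Finset (ℤ × ℤ)) (η : Cfg), Good η → s0 ≤ s →
      L.length ≤ n → (∀ X ∈ L, X.Ok s κ D) → c ≤ Pr Q D η {ω | ∀ X ∈ L, ω ∈ X.Ev e} :=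
  Vale.Agent.P167.H990.crs_main K.pos K.le K.arm (vrt K.pos K.lt) n κ

/-- The same with a weight which does not depend on the squares of `A` (the rectangles are in `A`). -/
theorem crs_ex {Q : ℝ} (K : Kit Q) (n κ : ℕ) : ∃ (c : ℝ) (s0 : ℤ), 0 < c ∧ c ≤ 1 ∧ 1 ≤ s0 ∧
    ∀ (e : Bool) (s : ℤ) (L : List Crs) (A D : Finset (ℤ × ℤ)) (η : Cfg) (G : Cfg → ℝ), Good η →
      s0 ≤ s → L.length ≤ n → A ⊆ D → (∀ X ∈ L, X.Ok s κ A) → Ind A G → (∀ ω, 0 ≤ G ω) →
      c * Ex Q D η G ≤
        Ex Q D η (fun ω => G ω * {ω : Cfg | ∀ X ∈ L, ω ∈ X.Ev e}.indicator 1 ω) := by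
  obtain ⟨c, s0, h1, h2, h3, h4⟩ := crs_ge K n κ
  refine ⟨c, s0, h1, h2, h3, fun e s L A D η G hη hs hL hA hX hG hG0 => ?_⟩
  rw [markov Vale.Agent.P167.H259.f_markov K.pos hA hη hG, ← Ex_mul_left]
  refine Ex_mono K.pos fun S _ => ?_
  rw [mul_comm c]
  exact mul_le_mul_of_nonneg_left (h4 e s L A _ (f_good.1 D η S hη) hs hL hX) (hG0 _)

end Vale.Agent.P167.N
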