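import Vale.Agent.P167.N.Base.ArmMDef
import Vale.Agent.P167.N.Base.Crs

/-!
# P167, the range `0 < q < 1`: decay of the arms which use only squares of the domain

In the annulus the domain is the intersection or the union of two coordinate half planes. After the
choice of the scale the two boundary lines are close to the centre or outside, and the domain is a
union of at most two rectangles in each of the four strips of the annulus; an arm of the domain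
crosses one of them in the short direction. The crossings of these rectangles by the other colour are
given by `crs_ge`.
-/

namespace Vale.Agent.P167.N

open Finset Vale.Agent.P145.FB Vale.Agent.P167 Vale.Agent.P167.FK Vale.Agent.P167.FKA
  Vale.Agent.P167.H632 Vale.Agent.P167.H704 Vale.Agent.P167.H635
open Relation (ReflTransGen)
open Vale.Agent.P153 Vale.Agent.P153.Topo
open Vale.Agent.P167.H871 (Pt)

/-! ### Half lines -/

/-- Half lines. -/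
def HL (P : ℤ → Prop) : Prop := ∃ c : ℤ, (∀ y, P y ↔ y < c) ∨ ∀ y, P y ↔ c ≤ y

/-- At most two intervals, at distance at least one. -/
def TwoI (lo hi : ℤ) (P : ℤ → Prop) : Prop := ∃ a1 b1 a2 b2 : ℤ, lo ≤ a1 ∧ a1 ≤ b1 ∧ b1 ≤ hi ∧
  b1 < a2 ∧ a2 ≤ b2 ∧ (a2 = b2 ∨ b2 ≤ hi) ∧
  ∀ y, lo ≤ y → y < hi → (P y ↔ (a1 ≤ y ∧ y < b1) ∨ (a2 ≤ y ∧ y < b2))

theorem twoI_and {lo hi : ℤ} (h : lo ≤ hi) {P1 P2 : ℤ → Prop} (h1 : HL P1) (h2 : HL P2) :
    TwoI lo hi fun y => P1 y ∧ P2 y := by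
  obtain ⟨c, h1⟩ := h1
  obtain ⟨d, h2⟩ := h2
  have key : ∀ A B : ℤ, (∀ y, lo ≤ y → y < hi → (P1 y ∧ P2 y ↔ A ≤ y ∧ y < B)) →
      TwoI lo hi fun y => P1 y ∧ P2 y := by
    intro A B hAB
    by_cases h3 : max A lo ≤ min B hi
    · refine ⟨max A lo, min B hi, min B hi + 1, min B hi + 1, by omega, h3, by omega, by omega,
        le_rfl, Or.inl rfl, fun y hy1 hy2 => ?_⟩
      refine (hAB y hy1 hy2).trans ?_
      omega
    · refine ⟨lo, lo, lo + 1, lo + 1, by omega, le_rfl, h, by omega,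
        le_rfl, Or.inl rfl, fun y hy1 hy2 => ?_⟩
      refine (hAB y hy1 hy2).trans ?_
      omega
  rcases h1 with h1 | h1 <;> rcases h2 with h2 | h2
  · exact key lo (min c d) fun y hy _ => by rw [h1, h2]; omega
  · exact key d c fun y _ _ => by rw [h1, h2]; omega
  · exact key c d fun y _ _ => by rw [h1, h2]
  · exact key (max c d) hi fun y _ hy => by rw [h1, h2]; omega

theorem twoI_or {lo hi : ℤ} (h : lo ≤ hi) {P1 P2 : ℤ → Prop} (h1 : HL P1) (h2 : HL P2) :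
    TwoI lo hi fun y => P1 y ∨ P2 y := by
  obtain ⟨c, h1⟩ := h1
  obtain ⟨d, h2⟩ := h2
  have key : ∀ A B : ℤ, (∀ y, lo ≤ y → y < hi → (P1 y ∨ P2 y ↔ A ≤ y ∧ y < B)) →
      TwoI lo hi fun y => P1 y ∨ P2 y := by
    intro A B hAB
    by_cases h3 : max A lo ≤ min B hi
    · refine ⟨max A lo, min B hi, min B hi + 1, min B hi + 1, by omega, h3, by omega, by omega,
        le_rfl, Or.inl rfl, fun y hy1 hy2 => ?_⟩
      refine (hAB y hy1 hy2).trans ?_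
      omega
    · refine ⟨lo, lo, lo + 1, lo + 1, by omega, le_rfl, h, by omega,
        le_rfl, Or.inl rfl, fun y hy1 hy2 => ?_⟩
      refine (hAB y hy1 hy2).trans ?_
      omega
  have key2 : ∀ c d : ℤ, (∀ y, P1 y ∨ P2 y ↔ y < c ∨ d ≤ y) →
      TwoI lo hi fun y => P1 y ∨ P2 y := by
    intro c d hcd
    by_cases h3 : d ≤ c ∨ d ≤ lo ∨ hi ≤ c
    · exact key lo hi fun y _ _ => by rw [hcd]; omega
    · by_cases h4 : hi ≤ d
      · exact key lo c fun y _ _ => by rw [hcd]; omega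
      · refine ⟨lo, max lo c, d, hi, le_rfl, by omega, by omega, by omega, by omega,
          Or.inr le_rfl, fun y _ _ => ?_⟩
        refine (hcd y).trans ?_
        omega
  rcases h1 with h1 | h1 <;> rcases h2 with h2 | h2
  · exact key lo (max c d) fun y hy _ => by rw [h1, h2]; omega
  · exact key2 c d fun y => by rw [h1, h2]
  · exact key2 d c fun y => by rw [h1, h2]; exact or_comm
  · exact key (min c d) hi fun y _ hy => by rw [h1, h2]; omega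

/-! ### Two strips -/

/-- Crossings of a rectangle in different directions and of different colours exclude each other. -/
theorem xcl {e : Bool} {a b p q : ℤ} {ω : Cfg} (h : ω ∈ Hc (!e) a b p q) (h' : ω ∈ Vc e a b p q) :
    False := by
  obtain ⟨s, t, h1, h2, h3, h4⟩ := h
  obtain ⟨s', t', k1, k2, k3, k4⟩ := h'
  cases e
  · rw [cs_false] at k4
    exact easy (F := op ω) h4 h1 h2 (by simpa [pr] using h3) k4
      (by simpa [pr] using k3) (Or.inl k1) (Or.inl k2)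
  · have h4' : PConn (op ω)ᶜ (Rect a b p q) s t := by
      rw [← cs_false]
      exact h4
    have h5 := h4'.swap
    have h5' := k4.swap
    have e1 : Prod.swap ⁻¹' (Rect a b p q) = Rect p q a b := by
      ext z
      rw [Set.mem_preimage, mem_rect, mem_rect]
      simp only [Prod.fst_swap, Prod.snd_swap]
      tauto
    rw [e1] at h5 h5'
    refine easy (F := Prod.swap ⁻¹' (op ω)) h5' (y := s.swap) (y' := t.swap) (by simpa using k1)
      (by simpa using k2) ?_ h5 ?_ (Or.inl (by simpa using h1)) (Or.inl (by simpa using h2))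
    · simp only [Prod.fst_swap, Prod.snd_swap]
      simp only [pr, if_true] at k3
      omega
    · simp only [Prod.fst_swap, Prod.snd_swap]
      simp only [pr, Bool.not_true, Bool.false_eq_true, if_false] at h3
      omega

theorem xcl' {e : Bool} {a b p q : ℤ} {ω : Cfg} (h : ω ∈ Hc e a b p q)
    (h' : ω ∈ Vc (!e) a b p q) : False := by
  refine xcl (e := !e) ?_ h'
  rwa [Bool.not_not]

theorem xclV {e : Bool} {a b p q : ℤ} {ω : Cfg} (h : ω ∈ Vc e a b p q)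
    (h' : ω ∈ Hc (!e) a b p q) : False := xcl h' h

/-- A path whose squares belong to rows of two separated intervals stays in one of them. -/
theorem stay_row {F : Set Pt} {A B lo hi a1 b1 a2 b2 : ℤ} (h12 : b1 < a2)
    (hF : ∀ v ∈ F, A ≤ v.1 → v.1 < B → lo ≤ v.2 → v.2 < hi →
      (a1 ≤ v.2 ∧ v.2 < b1) ∨ (a2 ≤ v.2 ∧ v.2 < b2)) {z z' : Pt}
    (h : PConn F (Rect A B lo hi) z z') (hne : z ≠ z') :
    PConn F (Rect A B a1 b1) z z' ∨ PConn F (Rect A B a2 b2) z z' := by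
  obtain ⟨h0, h⟩ := h
  induction h with
  | refl => exact absurd rfl hne
  | @tail x y hx hxy ih =>
    have hxR : x ∈ Rect A B lo hi := (show PConn F (Rect A B lo hi) z x from ⟨h0, hx⟩).right_mem
    have hyR := hxy.2
    rw [mem_rect] at hxR hyR
    obtain ⟨⟨s1, s2, s3⟩, -⟩ := hxy
    have h3 := hF _ s3 (by dsimp only; omega) (by dsimp only; omega) (by dsimp only; omega)
      (by dsimp only; omega)
    dsimp only at h3
    by_cases hzx : z = x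
    · subst hzx
      rcases h3 with h3 | h3
      · refine Or.inl ((PConn.refl ?_).tail ⟨s1, s2, s3⟩ ?_) <;> rw [mem_rect] <;> omega
      · refine Or.inr ((PConn.refl ?_).tail ⟨s1, s2, s3⟩ ?_) <;> rw [mem_rect] <;> omega
    · rcases ih hzx with ih | ih
      · have h4 := ih.right_mem
        rw [mem_rect] at h4
        refine Or.inl (ih.tail ⟨s1, s2, s3⟩ ?_)
        rw [mem_rect]
        omega
      · have h4 := ih.right_mem
        rw [mem_rect] at h4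
        refine Or.inr (ih.tail ⟨s1, s2, s3⟩ ?_)
        rw [mem_rect]
        omega

theorem stay_col {F : Set Pt} {A B lo hi a1 b1 a2 b2 : ℤ} (h12 : b1 < a2)
    (hF : ∀ v ∈ F, A ≤ v.2 → v.2 < B → lo ≤ v.1 → v.1 < hi →
      (a1 ≤ v.1 ∧ v.1 < b1) ∨ (a2 ≤ v.1 ∧ v.1 < b2)) {z z' : Pt}
    (h : PConn F (Rect lo hi A B) z z') (hne : z ≠ z') :
    PConn F (Rect a1 b1 A B) z z' ∨ PConn F (Rect a2 b2 A B) z z' := by
  obtain ⟨h0, h⟩ := h
  induction h with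
  | refl => exact absurd rfl hne
  | @tail x y hx hxy ih =>
    have hxR : x ∈ Rect lo hi A B := (show PConn F (Rect lo hi A B) z x from ⟨h0, hx⟩).right_mem
    have hyR := hxy.2
    rw [mem_rect] at hxR hyR
    obtain ⟨⟨s1, s2, s3⟩, -⟩ := hxy
    have h3 := hF _ s3 (by dsimp only; omega) (by dsimp only; omega) (by dsimp only; omega)
      (by dsimp only; omega)
    dsimp only at h3
    by_cases hzx : z = x
    · subst hzx
      rcases h3 with h3 | h3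
      · refine Or.inl ((PConn.refl ?_).tail ⟨s1, s2, s3⟩ ?_) <;> rw [mem_rect] <;> omega
      · refine Or.inr ((PConn.refl ?_).tail ⟨s1, s2, s3⟩ ?_) <;> rw [mem_rect] <;> omega
    · rcases ih hzx with ih | ih
      · have h4 := ih.right_mem
        rw [mem_rect] at h4
        refine Or.inl (ih.tail ⟨s1, s2, s3⟩ ?_)
        rw [mem_rect]
        omega
      · have h4 := ih.right_mem
        rw [mem_rect] at h4
        refine Or.inr (ih.tail ⟨s1, s2, s3⟩ ?_)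
        rw [mem_rect]
        omega

/-- No crossing of the strip `[A, B] × [lo, hi]` from left to right by squares of `E`. -/
def NoH (e : Bool) (A B lo hi : ℤ) (E : Finset Pt) (ω : Cfg) : Prop :=
  ∀ z z' : Pt, (z.1 + z.2) % 2 = pr e → z.1 = A → z'.1 = B →
    ¬ PConn (cs e ω ∩ ↑E) (Rect A B lo hi) z z'

/-- No crossing of the strip `[lo, hi] × [A, B]` from below to above by squares of `E`. -/
def NoV (e : Bool) (A B lo hi : ℤ) (E : Finset Pt) (ω : Cfg) : Prop :=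
  ∀ z z' : Pt, (z.1 + z.2) % 2 = pr e → z.2 = A → z'.2 = B →
    ¬ PConn (cs e ω ∩ ↑E) (Rect lo hi A B) z z'

/-- The vertical strips. -/
theorem strip_H {s : ℤ} {κ : ℕ} {A B lo hi : ℤ} {E : Finset Pt} {P : ℤ → Prop} (hs : 0 < s)
    (hAB : s ≤ B - A) (hκ : hi - lo ≤ κ * s) (hlo : lo ≤ hi) (hP : TwoI lo hi P)
    (hE : ∀ v : Pt, A ≤ v.1 → v.1 < B → lo ≤ v.2 → v.2 < hi → (v ∈ E ↔ P v.2)) :
    ∃ X1 X2 : Crs, X1.Ok s κ E ∧ X2.Ok s κ E ∧ ∀ (e : Bool) (ω : Cfg), ω ∈ X1.Ev (!e) →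
      ω ∈ X2.Ev (!e) → NoH e A B lo hi E ω := by
  obtain ⟨a1, b1, a2, b2, h1, h2, h3, h4, h5, h6, h7⟩ := hP
  refine ⟨Crs.mk false A B a1 b1, Crs.mk false A B a2 b2,
    Crs.ok_V (by omega) h2 hAB (by omega) fun v v1 v2 v3 v4 => ?_,
    Crs.ok_V (by omega) h5 hAB ?_ fun v v1 v2 v3 v4 => ?_, ?_⟩
  · exact (hE v v1 v2 (by omega) (by omega)).2 ((h7 _ (by omega) (by omega)).2 (Or.inl ⟨v3, v4⟩))
  · rcases h6 with h6 | h6
    · have : (0 : ℤ) ≤ κ * s := by positivity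
      omega
    · omega
  · rcases h6 with h6 | h6
    · omega
    · exact (hE v v1 v2 (by omega) (by omega)).2
        ((h7 _ (by omega) (by omega)).2 (Or.inr ⟨v3, v4⟩))
  · intro e ω hX1 hX2 z z' hp hz hz' hc
    rw [Crs.Ev_V] at hX1 hX2
    have hne : z ≠ z' := by
      rintro rfl
      omega
    rcases stay_row h4 (fun v hv v1 v2 v3 v4 =>
      (h7 _ v3 v4).1 ((hE v v1 v2 v3 v4).1 (Finset.mem_coe.1 hv.2))) hc hne with h | h
    · exact xcl' ⟨z, z', hz, hz', hp, h.mono Set.inter_subset_left subset_rfl⟩ hX1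
    · exact xcl' ⟨z, z', hz, hz', hp, h.mono Set.inter_subset_left subset_rfl⟩ hX2

/-- The horizontal strips. -/
theorem strip_V {s : ℤ} {κ : ℕ} {A B lo hi : ℤ} {E : Finset Pt} {P : ℤ → Prop} (hs : 0 < s)
    (hAB : s ≤ B - A) (hκ : hi - lo ≤ κ * s) (hlo : lo ≤ hi) (hP : TwoI lo hi P)
    (hE : ∀ v : Pt, A ≤ v.2 → v.2 < B → lo ≤ v.1 → v.1 < hi → (v ∈ E ↔ P v.1)) :
    ∃ X1 X2 : Crs, X1.Ok s κ E ∧ X2.Ok s κ E ∧ ∀ (e : Bool) (ω : Cfg), ω ∈ X1.Ev (!e) →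
      ω ∈ X2.Ev (!e) → NoV e A B lo hi E ω := by
  obtain ⟨a1, b1, a2, b2, h1, h2, h3, h4, h5, h6, h7⟩ := hP
  refine ⟨Crs.mk true a1 b1 A B, Crs.mk true a2 b2 A B,
    Crs.ok_H h2 (by omega) hAB (by omega) fun v v3 v4 v1 v2 => ?_,
    Crs.ok_H h5 (by omega) hAB ?_ fun v v3 v4 v1 v2 => ?_, ?_⟩
  · exact (hE v v1 v2 (by omega) (by omega)).2 ((h7 _ (by omega) (by omega)).2 (Or.inl ⟨v3, v4⟩))
  · rcases h6 with h6 | h6
    · have : (0 : ℤ) ≤ κ * s := by positivity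
      omega
    · omega
  · rcases h6 with h6 | h6
    · omega
    · exact (hE v v1 v2 (by omega) (by omega)).2
        ((h7 _ (by omega) (by omega)).2 (Or.inr ⟨v3, v4⟩))
  · intro e ω hX1 hX2 z z' hp hz hz' hc
    rw [Crs.Ev_H] at hX1 hX2
    have hne : z ≠ z' := by
      rintro rfl
      omega
    rcases stay_col h4 (fun v hv v1 v2 v3 v4 =>
      (h7 _ v3 v4).1 ((hE v v1 v2 v3 v4).1 (Finset.mem_coe.1 hv.2))) hc hne with h | h
    · exact xclV ⟨z, z', hz, hz', hp, h.mono Set.inter_subset_left subset_rfl⟩ hX1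
    · exact xclV ⟨z, z', hz, hz', hp, h.mono Set.inter_subset_left subset_rfl⟩ hX2

/-! ### The annulus -/

/-- An arm crosses one of the four strips. -/
theorem arm_strips {e : Bool} {x : Pt} {s R : ℤ} {E : Finset Pt} {ω : Cfg} (hs : 0 ≤ s)
    (hsR : s < R) (hE : E ⊆ Ann x s R)
    (h1 : NoH e (x.1 - R) (x.1 - s) (x.2 - R) (x.2 + R) E ω)
    (h2 : NoH e (x.1 + s) (x.1 + R) (x.2 - R) (x.2 + R) E ω)
    (h3 : NoV e (x.2 - R) (x.2 - s) (x.1 - R) (x.1 + R) E ω)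
    (h4 : NoV e (x.2 + s) (x.2 + R) (x.1 - R) (x.1 + R) E ω) : ω ∉ ArmE e x s R E := by
  rintro ⟨u, v, hp, hu, hv, h⟩
  obtain ⟨v', hv', h5⟩ := exit h (hu.trans hsR.le) hv
  have e1 : {w : Pt | nm (w - x) ≤ R} = Rect (x.1 - R) (x.1 + R) (x.2 - R) (x.2 + R) := by
    ext w
    rw [mem_rect, Set.mem_ofPred_eq, nm_le_iff]
    simp only [Prod.fst_sub, Prod.snd_sub]
    omega
  rw [e1] at h5
  have h6 := nm_le_iff.1 hu
  have h7 := le_nm_iff.1 hv'.ge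
  simp only [Prod.fst_sub, Prod.snd_sub] at h6 h7
  have hpar : ∀ {z : Pt} {Rg : Set Pt} {F : Set Pt}, PConn F Rg u z → (z.1 + z.2) % 2 = pr e :=
    fun h => by rw [← hp, h.parity]
  rcases h7 with h7 | h7 | h7 | h7
  · -- right
    obtain ⟨z, z', k1, k2, k3, k4, -⟩ := cut2 (fun w => w.1 - x.1) (fun a b h => by
      have := h.1
      omega) hsR.le h5 (by omega) (by omega)
    refine h2 z z' (hpar k3) (by omega) (by omega) (k4.mono subset_rfl ?_)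
    rintro w ⟨w1, w2, w3⟩
    rw [mem_rect] at w1 ⊢
    omega
  · -- left
    obtain ⟨z, z', k1, k2, k3, k4, -⟩ := cut2 (fun w => x.1 - w.1) (fun a b h => by
      have := h.1
      omega) hsR.le h5 (by omega) (by omega)
    refine h1 z' z ?_ (by omega) (by omega) (k4.symm.mono subset_rfl ?_)
    · rw [← k4.parity, hpar k3]
    rintro w ⟨w1, w2, w3⟩
    rw [mem_rect] at w1 ⊢
    omega
  · -- above
    obtain ⟨z, z', k1, k2, k3, k4, -⟩ := cut2 (fun w => w.2 - x.2) (fun a b h => by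
      have := h.2.1
      omega) hsR.le h5 (by omega) (by omega)
    refine h4 z z' (hpar k3) (by omega) (by omega) (k4.mono subset_rfl ?_)
    rintro w ⟨w1, w2, w3⟩
    rw [mem_rect] at w1 ⊢
    omega
  · -- below
    obtain ⟨z, z', k1, k2, k3, k4, -⟩ := cut2 (fun w => x.2 - w.2) (fun a b h => by
      have := h.2.1
      omega) hsR.le h5 (by omega) (by omega)
    refine h3 z' z ?_ (by omega) (by omega) (k4.symm.mono subset_rfl ?_)
    · rw [← k4.parity, hpar k3]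
    rintro w ⟨w1, w2, w3⟩
    rw [mem_rect] at w1 ⊢
    omega

/-- The boundary line is close to the centre or outside of the box. -/
def GoodS (H : Pt → Prop) (x : Pt) (s R : ℤ) : Prop :=
  (∃ c : ℤ, (|c - x.1| ≤ s ∨ R ≤ |c - x.1|) ∧ ((∀ v, H v ↔ v.1 < c) ∨ ∀ v, H v ↔ c ≤ v.1)) ∨
  ∃ c : ℤ, (|c - x.2| ≤ s ∨ R ≤ |c - x.2|) ∧ ((∀ v, H v ↔ v.2 < c) ∨ ∀ v, H v ↔ c ≤ v.2)

theorem goodS_row {H : Pt → Prop} {x : Pt} {s R : ℤ} (h : GoodS H x s R) (hs : 0 ≤ s)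
    (hsR : s < R) :
    (∃ P, HL P ∧ ∀ v : Pt, x.1 - R ≤ v.1 → v.1 < x.1 - s → x.2 - R ≤ v.2 → v.2 < x.2 + R →
      (H v ↔ P v.2)) ∧
    (∃ P, HL P ∧ ∀ v : Pt, x.1 + s ≤ v.1 → v.1 < x.1 + R → x.2 - R ≤ v.2 → v.2 < x.2 + R →
      (H v ↔ P v.2)) ∧
    (∃ P, HL P ∧ ∀ v : Pt, x.2 - R ≤ v.2 → v.2 < x.2 - s → x.1 - R ≤ v.1 → v.1 < x.1 + R →
      (H v ↔ P v.1)) ∧
    (∃ P, HL P ∧ ∀ v : Pt, x.2 + s ≤ v.2 → v.2 < x.2 + R → x.1 - R ≤ v.1 → v.1 < x.1 + R →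
      (H v ↔ P v.1)) := by
  have hl1 : ∀ c : ℤ, HL fun y => y < c := fun c => ⟨c, Or.inl fun _ => Iff.rfl⟩
  have hl2 : ∀ c : ℤ, HL fun y => c ≤ y := fun c => ⟨c, Or.inr fun _ => Iff.rfl⟩
  rcases h with ⟨c, hc, h⟩ | ⟨c, hc, h⟩
  · rw [abs_le, le_abs] at hc
    refine ⟨?_, ?_, ?_, ?_⟩
    · by_cases h1 : c ≤ x.1 - R
      · rcases h with h | h
        · exact ⟨_, hl1 (x.2 - R), fun v _ _ _ _ => by rw [h]; omega⟩
        · exact ⟨_, hl2 (x.2 - R), fun v _ _ _ _ => by rw [h]; omega⟩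
      · rcases h with h | h
        · exact ⟨_, hl2 (x.2 - R), fun v _ _ _ _ => by rw [h]; omega⟩
        · exact ⟨_, hl1 (x.2 - R), fun v _ _ _ _ => by rw [h]; omega⟩
    · by_cases h1 : x.1 + R ≤ c
      · rcases h with h | h
        · exact ⟨_, hl2 (x.2 - R), fun v _ _ _ _ => by rw [h]; omega⟩
        · exact ⟨_, hl1 (x.2 - R), fun v _ _ _ _ => by rw [h]; omega⟩
      · rcases h with h | h
        · exact ⟨_, hl1 (x.2 - R), fun v _ _ _ _ => by rw [h]; omega⟩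
        · exact ⟨_, hl2 (x.2 - R), fun v _ _ _ _ => by rw [h]; omega⟩
    · rcases h with h | h
      · exact ⟨_, hl1 c, fun v _ _ _ _ => h v⟩
      · exact ⟨_, hl2 c, fun v _ _ _ _ => h v⟩
    · rcases h with h | h
      · exact ⟨_, hl1 c, fun v _ _ _ _ => h v⟩
      · exact ⟨_, hl2 c, fun v _ _ _ _ => h v⟩
  · rw [abs_le, le_abs] at hc
    refine ⟨?_, ?_, ?_, ?_⟩
    · rcases h with h | h
      · exact ⟨_, hl1 c, fun v _ _ _ _ => h v⟩
      · exact ⟨_, hl2 c, fun v _ _ _ _ => h v⟩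
    · rcases h with h | h
      · exact ⟨_, hl1 c, fun v _ _ _ _ => h v⟩
      · exact ⟨_, hl2 c, fun v _ _ _ _ => h v⟩
    · by_cases h1 : c ≤ x.2 - R
      · rcases h with h | h
        · exact ⟨_, hl1 (x.1 - R), fun v _ _ _ _ => by rw [h]; omega⟩
        · exact ⟨_, hl2 (x.1 - R), fun v _ _ _ _ => by rw [h]; omega⟩
      · rcases h with h | h
        · exact ⟨_, hl2 (x.1 - R), fun v _ _ _ _ => by rw [h]; omega⟩
        · exact ⟨_, hl1 (x.1 - R), fun v _ _ _ _ => by rw [h]; omega⟩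
    · by_cases h1 : x.2 + R ≤ c
      · rcases h with h | h
        · exact ⟨_, hl2 (x.1 - R), fun v _ _ _ _ => by rw [h]; omega⟩
        · exact ⟨_, hl1 (x.1 - R), fun v _ _ _ _ => by rw [h]; omega⟩
      · rcases h with h | h
        · exact ⟨_, hl1 (x.1 - R), fun v _ _ _ _ => by rw [h]; omega⟩
        · exact ⟨_, hl2 (x.1 - R), fun v _ _ _ _ => by rw [h]; omega⟩

theorem goodS_of {H : Pt → Prop} {x : Pt} (hH : HP H) : ∃ d : ℤ, 0 ≤ d ∧ ∀ s R, (d ≤ s ∨ R ≤ d) →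
    GoodS H x s R := by
  obtain ⟨c, h | h | h | h⟩ := hH
  · exact ⟨|c - x.1|, abs_nonneg _, fun s R h' => Or.inl ⟨c, h', Or.inl h⟩⟩
  · exact ⟨|c - x.1|, abs_nonneg _, fun s R h' => Or.inl ⟨c, h', Or.inr h⟩⟩
  · exact ⟨|c - x.2|, abs_nonneg _, fun s R h' => Or.inr ⟨c, h', Or.inl h⟩⟩
  · exact ⟨|c - x.2|, abs_nonneg _, fun s R h' => Or.inr ⟨c, h', Or.inr h⟩⟩

/-- In each of the four strips the domain consists of at most two rectangles. -/
def StripOk (D : Finset Pt) (x : Pt) (s R : ℤ) : Prop :=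
  (∃ P, TwoI (x.2 - R) (x.2 + R) P ∧ ∀ v : Pt, x.1 - R ≤ v.1 → v.1 < x.1 - s →
    x.2 - R ≤ v.2 → v.2 < x.2 + R → (v ∈ D ↔ P v.2)) ∧
  (∃ P, TwoI (x.2 - R) (x.2 + R) P ∧ ∀ v : Pt, x.1 + s ≤ v.1 → v.1 < x.1 + R →
    x.2 - R ≤ v.2 → v.2 < x.2 + R → (v ∈ D ↔ P v.2)) ∧
  (∃ P, TwoI (x.1 - R) (x.1 + R) P ∧ ∀ v : Pt, x.2 - R ≤ v.2 → v.2 < x.2 - s →
    x.1 - R ≤ v.1 → v.1 < x.1 + R → (v ∈ D ↔ P v.1)) ∧
  (∃ P, TwoI (x.1 - R) (x.1 + R) P ∧ ∀ v : Pt, x.2 + s ≤ v.2 → v.2 < x.2 + R →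
    x.1 - R ≤ v.1 → v.1 < x.1 + R → (v ∈ D ↔ P v.1))

theorem mem_ann_of {x v : Pt} {s R : ℤ} (a1 : x.1 - R ≤ v.1) (a2 : v.1 < x.1 + R)
    (a3 : x.2 - R ≤ v.2) (a4 : v.2 < x.2 + R)
    (a5 : v.1 < x.1 - s ∨ x.1 + s ≤ v.1 ∨ v.2 < x.2 - s ∨ x.2 + s ≤ v.2) : v ∈ Ann x s R := by
  rw [mem_Ann, mem_Bq, mem_Bq]
  omega

theorem stripOk_half {x : Pt} {s R : ℤ} {D : Finset Pt} {H1 H2 : Pt → Prop} (hs : 0 ≤ s)
    (hsR : s < R) (h1 : GoodS H1 x s R) (h2 : GoodS H2 x s R)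
    (hD : (∀ v ∈ Ann x s R, v ∈ D ↔ H1 v ∧ H2 v) ∨
      (∀ v ∈ Ann x s R, v ∈ D ↔ H1 v ∨ H2 v)) : StripOk D x s R := by
  have key : ∀ (S : Pt → Prop) (f : Pt → ℤ) (lo hi : ℤ), lo ≤ hi →
      (∀ v, S v → v ∈ Ann x s R) →
      (∃ P, HL P ∧ ∀ v, S v → (H1 v ↔ P (f v))) → (∃ P, HL P ∧ ∀ v, S v → (H2 v ↔ P (f v))) →
      ∃ P, TwoI lo hi P ∧ ∀ v, S v → (v ∈ D ↔ P (f v)) := by
    rintro S f lo hi hlo hS ⟨P1, p1, q1⟩ ⟨P2, p2, q2⟩
    rcases hD with hD | hD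
    · refine ⟨_, twoI_and hlo p1 p2, fun v hv => ?_⟩
      rw [hD v (hS v hv), q1 v hv, q2 v hv]
    · refine ⟨_, twoI_or hlo p1 p2, fun v hv => ?_⟩
      rw [hD v (hS v hv), q1 v hv, q2 v hv]
  obtain ⟨l1, r1, b1, t1⟩ := goodS_row h1 hs hsR
  obtain ⟨l2, r2, b2, t2⟩ := goodS_row h2 hs hsR
  refine ⟨?_, ?_, ?_, ?_⟩
  · obtain ⟨P, p1, p2⟩ := key (fun v => x.1 - R ≤ v.1 ∧ v.1 < x.1 - s ∧ x.2 - R ≤ v.2 ∧
      v.2 < x.2 + R) (fun v => v.2) (x.2 - R) (x.2 + R) (by omega)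
      (fun v hv => mem_ann_of (by omega) (by omega) (by omega) (by omega) (by omega))
      (by obtain ⟨P, a, b⟩ := l1; exact ⟨P, a, fun v hv => b v hv.1 hv.2.1 hv.2.2.1 hv.2.2.2⟩)
      (by obtain ⟨P, a, b⟩ := l2; exact ⟨P, a, fun v hv => b v hv.1 hv.2.1 hv.2.2.1 hv.2.2.2⟩)
    exact ⟨P, p1, fun v a1 a2 a3 a4 => p2 v ⟨a1, a2, a3, a4⟩⟩
  · obtain ⟨P, p1, p2⟩ := key (fun v => x.1 + s ≤ v.1 ∧ v.1 < x.1 + R ∧ x.2 - R ≤ v.2 ∧
      v.2 < x.2 + R) (fun v => v.2) (x.2 - R) (x.2 + R) (by omega)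
      (fun v hv => mem_ann_of (by omega) (by omega) (by omega) (by omega) (by omega))
      (by obtain ⟨P, a, b⟩ := r1; exact ⟨P, a, fun v hv => b v hv.1 hv.2.1 hv.2.2.1 hv.2.2.2⟩)
      (by obtain ⟨P, a, b⟩ := r2; exact ⟨P, a, fun v hv => b v hv.1 hv.2.1 hv.2.2.1 hv.2.2.2⟩)
    exact ⟨P, p1, fun v a1 a2 a3 a4 => p2 v ⟨a1, a2, a3, a4⟩⟩
  · obtain ⟨P, p1, p2⟩ := key (fun v => x.2 - R ≤ v.2 ∧ v.2 < x.2 - s ∧ x.1 - R ≤ v.1 ∧
      v.1 < x.1 + R) (fun v => v.1) (x.1 - R) (x.1 + R) (by omega)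
      (fun v hv => mem_ann_of (by omega) (by omega) (by omega) (by omega) (by omega))
      (by obtain ⟨P, a, b⟩ := b1; exact ⟨P, a, fun v hv => b v hv.1 hv.2.1 hv.2.2.1 hv.2.2.2⟩)
      (by obtain ⟨P, a, b⟩ := b2; exact ⟨P, a, fun v hv => b v hv.1 hv.2.1 hv.2.2.1 hv.2.2.2⟩)
    exact ⟨P, p1, fun v a1 a2 a3 a4 => p2 v ⟨a1, a2, a3, a4⟩⟩
  · obtain ⟨P, p1, p2⟩ := key (fun v => x.2 + s ≤ v.2 ∧ v.2 < x.2 + R ∧ x.1 - R ≤ v.1 ∧
      v.1 < x.1 + R) (fun v => v.1) (x.1 - R) (x.1 + R) (by omega)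
      (fun v hv => mem_ann_of (by omega) (by omega) (by omega) (by omega) (by omega))
      (by obtain ⟨P, a, b⟩ := t1; exact ⟨P, a, fun v hv => b v hv.1 hv.2.1 hv.2.2.1 hv.2.2.2⟩)
      (by obtain ⟨P, a, b⟩ := t2; exact ⟨P, a, fun v hv => b v hv.1 hv.2.1 hv.2.2.1 hv.2.2.2⟩)
    exact ⟨P, p1, fun v a1 a2 a3 a4 => p2 v ⟨a1, a2, a3, a4⟩⟩

theorem stripOk_ray {x : Pt} {s R : ℤ} {D : Finset Pt} {l h : Fin 4 → ℤ} (hs : 0 ≤ s)
    (hsR : s < R) (hr : RayOk x s l h) (hD : ∀ v ∈ Ann x s R, v ∈ D ↔ ¬ InRay x l h v) :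
    StripOk D x s R := by
  have hT : ∀ (c d : ℤ) {lo hi : ℤ}, lo ≤ hi → TwoI lo hi fun y => y < c ∨ d ≤ y :=
    fun c d _ _ h => twoI_or h ⟨c, Or.inl fun _ => Iff.rfl⟩ ⟨d, Or.inr fun _ => Iff.rfl⟩
  unfold RayOk at hr
  refine ⟨⟨_, hT (l 2) (h 2) (by omega), fun v a1 a2 a3 a4 => ?_⟩,
    ⟨_, hT (l 0) (h 0) (by omega), fun v a1 a2 a3 a4 => ?_⟩,
    ⟨_, hT (l 3) (h 3) (by omega), fun v a1 a2 a3 a4 => ?_⟩,
    ⟨_, hT (l 1) (h 1) (by omega), fun v a1 a2 a3 a4 => ?_⟩⟩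
  · rw [hD v (mem_ann_of (by omega) (by omega) (by omega) (by omega) (by omega)), InRay]
    omega
  · rw [hD v (mem_ann_of (by omega) (by omega) (by omega) (by omega) (by omega)), InRay]
    omega
  · rw [hD v (mem_ann_of (by omega) (by omega) (by omega) (by omega) (by omega)), InRay]
    omega
  · rw [hD v (mem_ann_of (by omega) (by omega) (by omega) (by omega) (by omega)), InRay]
    omega

/-- **The crossings which exclude the arms of the domain.** -/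
theorem eight {x : Pt} {s : ℤ} {D : Finset Pt} (hs : 1 ≤ s) (hD : StripOk D x s (2 * s)) :
    ∃ L : List Crs, L.length ≤ 8 ∧ (∀ X ∈ L, X.Ok s 4 (D ∩ Ann x s (2 * s))) ∧
      ∀ (e : Bool) (ω : Cfg), (∀ X ∈ L, ω ∈ X.Ev (!e)) →
        ω ∉ ArmE e x s (2 * s) (D ∩ Ann x s (2 * s)) := by
  set E := D ∩ Ann x s (2 * s) with hE
  have hDE : ∀ v : Pt, x.1 - 2 * s ≤ v.1 → v.1 < x.1 + 2 * s → x.2 - 2 * s ≤ v.2 →
      v.2 < x.2 + 2 * s → (v.1 < x.1 - s ∨ x.1 + s ≤ v.1 ∨ v.2 < x.2 - s ∨ x.2 + s ≤ v.2) →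
      (v ∈ E ↔ v ∈ D) := by
    intro v a1 a2 a3 a4 a5
    rw [hE, mem_inter, and_iff_left (mem_ann_of a1 a2 a3 a4 a5)]
  obtain ⟨⟨P1, p1, q1⟩, ⟨P2, p2, q2⟩, ⟨P3, p3, q3⟩, P4, p4, q4⟩ := hD
  obtain ⟨X1, X2, o1, o2, n1⟩ := strip_H (s := s) (κ := 4) (E := E) (A := x.1 - 2 * s)
    (B := x.1 - s) (by omega) (by omega) (by push_cast; omega) (by omega) p1
    fun v a1 a2 a3 a4 => (hDE v a1 (by omega) a3 a4 (by omega)).trans (q1 v a1 a2 a3 a4)
  obtain ⟨X3, X4, o3, o4, n2⟩ := strip_H (s := s) (κ := 4) (E := E) (A := x.1 + s)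
    (B := x.1 + 2 * s) (by omega) (by omega) (by push_cast; omega) (by omega) p2
    fun v a1 a2 a3 a4 => (hDE v (by omega) a2 a3 a4 (by omega)).trans (q2 v a1 a2 a3 a4)
  obtain ⟨X5, X6, o5, o6, n3⟩ := strip_V (s := s) (κ := 4) (E := E) (A := x.2 - 2 * s)
    (B := x.2 - s) (by omega) (by omega) (by push_cast; omega) (by omega) p3
    fun v a1 a2 a3 a4 => (hDE v a3 a4 a1 (by omega) (by omega)).trans (q3 v a1 a2 a3 a4)
  obtain ⟨X7, X8, o7, o8, n4⟩ := strip_V (s := s) (κ := 4) (E := E) (A := x.2 + s)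
    (B := x.2 + 2 * s) (by omega) (by omega) (by push_cast; omega) (by omega) p4
    fun v a1 a2 a3 a4 => (hDE v a3 a4 (by omega) a2 (by omega)).trans (q4 v a1 a2 a3 a4)
  refine ⟨[X1, X2, X3, X4, X5, X6, X7, X8], le_rfl, ?_, fun e ω hω => ?_⟩
  · intro X hX
    simp only [List.mem_cons, List.not_mem_nil, or_false] at hX
    rcases hX with rfl | rfl | rfl | rfl | rfl | rfl | rfl | rfl <;> assumption
  · exact arm_strips (by omega) (by omega) inter_subset_right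
      (n1 e ω (hω _ (by simp)) (hω _ (by simp))) (n2 e ω (hω _ (by simp)) (hω _ (by simp)))
      (n3 e ω (hω _ (by simp)) (hω _ (by simp))) (n4 e ω (hω _ (by simp)) (hω _ (by simp)))

/-- The choice of the scale. -/
theorem exists_scale {x : Pt} {r s0 : ℤ} {D : Finset Pt} (hr : 1 ≤ r) (hs0 : 1 ≤ s0)
    (hS : H635.Shp D x r (8 * s0 * r)) : ∃ s : ℤ, s0 * r ≤ s ∧ 2 * s ≤ 8 * s0 * r ∧
      StripOk D x s (2 * s) := by
  set m := s0 * r with hm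
  have hm1 : r ≤ m := by nlinarith
  have e1 : 8 * s0 * r = 8 * m := by ring
  rw [e1] at hS ⊢
  rcases hS with ⟨H1, H2, p1, p2, hD⟩ | ⟨l, h, h1, h2⟩
  · obtain ⟨d1, d1', g1⟩ := goodS_of (x := x) p1
    obtain ⟨d2, d2', g2⟩ := goodS_of (x := x) p2
    obtain ⟨s, hs1, hs2, hs3, hs4⟩ : ∃ s : ℤ, m ≤ s ∧ 2 * s ≤ 8 * m ∧
        (d1 ≤ s ∨ 2 * s ≤ d1) ∧ (d2 ≤ s ∨ 2 * s ≤ d2) := by
      by_cases a1 : (d1 ≤ m ∨ 2 * m ≤ d1) ∧ (d2 ≤ m ∨ 2 * m ≤ d2)
      · exact ⟨m, le_rfl, by omega, a1⟩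
      by_cases a2 : (d1 ≤ 2 * m ∨ 2 * (2 * m) ≤ d1) ∧ (d2 ≤ 2 * m ∨ 2 * (2 * m) ≤ d2)
      · exact ⟨2 * m, by omega, by omega, a2⟩
      exact ⟨4 * m, by omega, by omega, by omega⟩
    have hsub : Ann x s (2 * s) ⊆ Ann x r (8 * m) := ann_mono (by omega) hs2
    exact ⟨s, hs1, hs2, stripOk_half (by omega) (by omega) (g1 s (2 * s) hs3) (g2 s (2 * s) hs4)
      (hD.imp (fun h v hv => h v (hsub hv)) fun h v hv => h v (hsub hv))⟩
  · exact ⟨m, le_rfl, by omega, stripOk_ray (by omega) (by omega) (h1.mono hm1) fun v hv =>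
      h2 v (ann_mono hm1 (by omega) hv)⟩

/-- **The bound at one scale.** -/
theorem oneM {Q : ℝ} (K : Kit Q) : OneM Q := by
  have hQ0 := K.pos
  obtain ⟨c, s0, hc0, hc1, hs0, h⟩ := crs_ge K 8 4
  refine ⟨8 * s0, c / 2, by omega, by linarith, by linarith, ?_⟩
  intro e x r D hr hS
  obtain ⟨s, hs1, hs2, hS⟩ := exists_scale hr hs0 hS
  have hrs : r ≤ s := by nlinarith
  have hs0s : s0 ≤ s := by nlinarith
  obtain ⟨L, l1, l2, l3⟩ := eight (by omega) hS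
  refine ArmMAt.ext hQ0 hrs (by omega) hs2 fun η hη => ?_
  have h1 := h (!e) s L (D ∩ Ann x s (2 * s)) η hη hs0s l1 l2
  have h2 : Pr Q (D ∩ Ann x s (2 * s)) η {ω | ∀ X ∈ L, ω ∈ X.Ev (!e)} ≤
      Pr Q (D ∩ Ann x s (2 * s)) η (ArmE e x s (2 * s) (D ∩ Ann x s (2 * s)))ᶜ :=
    Pr_mono hQ0 fun ω hω => l3 e ω hω
  rw [Pr_compl hQ0] at h2
  linarith

/-- **Decay of the arms which use only squares of the domain**, both colours, every configuration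
elsewhere. -/
theorem Kit.armM {Q : ℝ} (K : Kit Q) : ∃ α C : ℝ, 0 < α ∧ 0 < C ∧ ArmM Q α C :=
  armM_of_one K.pos (oneM K)

end Vale.Agent.P167.N
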