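import Vale.Agent.P167.N.Kit
import Vale.Agent.P167.N.Base.ArmM

/-!
# P167, `q < 1`: decay of the arms next to a free boundary of simple shape
-/

namespace Vale.Agent.P167.N

open Vale.Agent.P167.H635

theorem Kit.armShp {Q : ℝ} (K : Kit Q) : ∃ α C : ℝ, 0 < α ∧ 0 < C ∧ ArmShp Q α C := by
  obtain ⟨α, C, hα, hC, h⟩ := K.armM
  exact ⟨α, C, hα, hC, h.shp K.pos⟩

end Vale.Agent.P167.N
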