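import Vale.Agent.P167.N.Kit
import Vale.Agent.P167.H366.Step2

/-!
# P167, the range `0 < q < 1`: crossings of rectangles, worst outside configuration
-/

namespace Vale.Agent.P167.N

/-- Uniform lower bounds for the crossings of the rectangles in the long direction. -/
theorem vr {Q : ℝ} (K : Kit Q) : Vale.Agent.P167.H816.VR Q :=
  Vale.Agent.P167.H366.vr K.pos K.lt

end Vale.Agent.P167.N
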