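import Vale.Agent.P167.N.Kit
import Vale.Agent.P167.H635.Shape

/-!
# P167, the range `0 < q < 1`: arms in the presence of frozen closed squares

The statements of the arm bounds at flat sides, corners and rows of frozen squares, and their formal
properties (monotonicity, duality).
-/

namespace Vale.Agent.P167.N

open Vale.Agent.P167 Vale.Agent.P167.FK Vale.Agent.P167.FKA
open Vale.Agent.P167.H635 (InRay RayOk)

/-- A coordinate half plane of squares. -/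
def HalfPl (H : Set (ℤ × ℤ)) : Prop :=
  ∃ c : ℤ, H = {v | v.1 < c} ∨ H = {v | c ≤ v.1} ∨ H = {v | v.2 < c} ∨ H = {v | c ≤ v.2}

/-- In the annulus, `K` is the intersection or the union of two coordinate half planes, or consists
of at most four rays. -/
def Shp (K : Set (ℤ × ℤ)) (x : ℤ × ℤ) (r R : ℤ) : Prop :=
  (∃ H₁ H₂ : Set (ℤ × ℤ), HalfPl H₁ ∧ HalfPl H₂ ∧
    ((∀ v ∈ Bq x R \ Bq x r, v ∈ K ↔ (v ∈ H₁ ∧ v ∈ H₂)) ∨
      (∀ v ∈ Bq x R \ Bq x r, v ∈ K ↔ (v ∈ H₁ ∨ v ∈ H₂)))) ∨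
  ∃ l h : Fin 4 → ℤ, RayOk x r l h ∧ ∀ v ∈ Bq x R \ Bq x r, v ∈ K ↔ InRay x l h v

/-- Decay of the primal arms of annuli in which the frozen squares are closed and form a simple
shape. -/
def ArmS (Q α C : ℝ) : Prop := ∀ (x : ℤ × ℤ) (r R : ℤ) (D : Finset (ℤ × ℤ)) (η : Cfg)
  (G : Cfg → ℝ), 1 ≤ r → r ≤ R → Good η →
  (∀ v ∈ Bq x R \ Bq x r, v ∉ D → η v = false) →
  Shp {v | v ∈ Bq x R \ Bq x r ∧ v ∉ D} x r R → (∀ ω, 0 ≤ G ω) → Ind (Bq x R \ Bq x r) G →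
  Ex Q D η (fun ω => G ω * {ω | ArmPx x r R ω}.indicator 1 ω) ≤
    C * ((r : ℝ) / R) ^ α * Ex Q D η G

/-- Decay of the dual arms of annuli in which the frozen squares are open and form a simple
shape. -/
def ArmSD (Q α C : ℝ) : Prop := ∀ (x : ℤ × ℤ) (r R : ℤ) (D : Finset (ℤ × ℤ)) (η : Cfg)
  (G : Cfg → ℝ), 1 ≤ r → r ≤ R → Good η →
  (∀ v ∈ Bq x R \ Bq x r, v ∉ D → η v = true) →
  Shp {v | v ∈ Bq x R \ Bq x r ∧ v ∉ D} x r R → (∀ ω, 0 ≤ G ω) → Ind (Bq x R \ Bq x r) G →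
  Ex Q D η (fun ω => G ω * {ω | ArmDx x r R ω}.indicator 1 ω) ≤
    C * ((r : ℝ) / R) ^ α * Ex Q D η G

variable {Q α C : ℝ} {K K' : Set (ℤ × ℤ)} {x : ℤ × ℤ} {r r' R R' : ℤ}

theorem mem_bq' {x v : ℤ × ℤ} {R : ℤ} : v ∈ Bq x R ↔
    (x.1 - R ≤ v.1 ∧ v.1 < x.1 + R) ∧ x.2 - R ≤ v.2 ∧ v.2 < x.2 + R := by
  simp only [Bq, Finset.mem_product, Finset.mem_Ico]

theorem bq_le (h : R ≤ R') {v : ℤ × ℤ} (hv : v ∈ Bq x R) : v ∈ Bq x R' := by
  rw [mem_bq'] at *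
  omega

theorem ann_le (hr : r ≤ r') (hR : R' ≤ R) {v : ℤ × ℤ} (hv : v ∈ Bq x R' \ Bq x r') :
    v ∈ Bq x R \ Bq x r := by
  rw [Finset.mem_sdiff] at *
  exact ⟨bq_le hR hv.1, fun h => hv.2 (bq_le hr h)⟩

theorem Shp.mono (h : Shp K x r R) (hr : r ≤ r') (hR : R' ≤ R) : Shp K x r' R' := by
  rcases h with ⟨H₁, H₂, h1, h2, h⟩ | ⟨l, k, h1, h⟩
  · exact Or.inl ⟨H₁, H₂, h1, h2, h.imp (fun h v hv => h v (ann_le hr hR hv))
      fun h v hv => h v (ann_le hr hR hv)⟩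
  · exact Or.inr ⟨l, k, h1.mono hr, fun v hv => h v (ann_le hr hR hv)⟩

theorem Shp.congr (h : Shp K x r R) (hP : ∀ v ∈ Bq x R \ Bq x r, (v ∈ K' ↔ v ∈ K)) :
    Shp K' x r R := by
  rcases h with ⟨H₁, H₂, h1, h2, h⟩ | ⟨l, k, h1, h⟩
  · exact Or.inl ⟨H₁, H₂, h1, h2, h.imp (fun h v hv => (hP v hv).trans (h v hv))
      fun h v hv => (hP v hv).trans (h v hv)⟩
  · exact Or.inr ⟨l, k, h1, fun v hv => (hP v hv).trans (h v hv)⟩

/-- The half plane. -/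
theorem Shp.half {H : Set (ℤ × ℤ)} (hH : HalfPl H) (h : ∀ v ∈ Bq x R \ Bq x r, (v ∈ K ↔ v ∈ H)) :
    Shp K x r R :=
  Or.inl ⟨H, H, hH, hH, Or.inl fun v hv => (h v hv).trans (and_self_iff).symm⟩

/-- Rays. -/
theorem Shp.ray {l k : Fin 4 → ℤ} (h1 : RayOk x r l k)
    (h : ∀ v ∈ Bq x R \ Bq x r, (v ∈ K ↔ InRay x l k v)) : Shp K x r R := Or.inr ⟨l, k, h1, h⟩

/-- Nothing. -/
theorem Shp.none (h : ∀ v ∈ Bq x R \ Bq x r, v ∉ K) : Shp K x r R := by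
  refine Shp.half ⟨x.1 - R, Or.inl rfl⟩ fun v hv => iff_of_false (h v hv) fun h' => ?_
  have h1 := mem_bq'.1 (Finset.mem_sdiff.1 hv).1
  have h2 : v.1 < x.1 - R := h'
  omega

/-- The frozen part of the annulus. -/
theorem Shp.off {D : Finset (ℤ × ℤ)} (h : Shp K x r R)
    (hK : ∀ v ∈ Bq x R \ Bq x r, (v ∉ D ↔ v ∈ K)) :
    Shp {v | v ∈ Bq x R \ Bq x r ∧ v ∉ D} x r R :=
  h.congr fun v hv => ⟨fun h => (hK v hv).1 h.2, fun h => ⟨hv, (hK v hv).2 h⟩⟩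

/-- Without frozen squares. -/
theorem ArmS.dec (h : ArmS Q α C) : ArmDec Q α C := by
  intro x r R D η G hr hrR hη hD hG0 hG
  exact h x r R D η G hr hrR hη (fun v hv hvD => absurd (hD hv) hvD)
    (Shp.none fun v hv hvD => hvD.2 (hD hv)) hG0 hG

/-! ### Duality -/

theorem HalfPl.shi {H : Set (ℤ × ℤ)} (h : HalfPl H) : HalfPl {v | FKA.shi v ∈ H} := by
  obtain ⟨c, rfl | rfl | rfl | rfl⟩ := h
  · refine ⟨c + 1, Or.inl (Set.ext fun v => ?_)⟩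
    show v.1 - 1 < c ↔ v.1 < c + 1
    omega
  · refine ⟨c + 1, Or.inr (Or.inl (Set.ext fun v => ?_))⟩
    show c ≤ v.1 - 1 ↔ c + 1 ≤ v.1
    omega
  · exact ⟨c, Or.inr (Or.inr (Or.inl rfl))⟩
  · exact ⟨c, Or.inr (Or.inr (Or.inr rfl))⟩

theorem ann_sh {v : ℤ × ℤ} : v ∈ Bq (FKA.sh x) R \ Bq (FKA.sh x) r ↔
    FKA.shi v ∈ Bq x R \ Bq x r := by
  rw [Finset.mem_sdiff, Finset.mem_sdiff, mem_Bq_sh, mem_Bq_sh]

theorem Shp.sh (hs : Shp K x r R) : Shp {v | FKA.shi v ∈ K} (FKA.sh x) r R := by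
  rcases hs with ⟨H₁, H₂, h1, h2, h⟩ | ⟨l, k, h1, h⟩
  · exact Or.inl ⟨_, _, h1.shi, h2.shi, h.imp (fun h v hv => h _ (ann_sh.1 hv))
      fun h v hv => h _ (ann_sh.1 hv)⟩
  · refine Or.inr ⟨fun i => l i + (if i = 1 ∨ i = 3 then 1 else 0),
      fun i => k i + (if i = 1 ∨ i = 3 then 1 else 0), ?_, fun v hv => ?_⟩
    · unfold RayOk at *
      simp only [FKA.sh, Fin.isValue, Fin.reduceEq, or_self, or_false, or_true,
        true_or, if_true, if_false, add_zero]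
      omega
    · refine (h _ (ann_sh.1 hv)).trans ?_
      unfold InRay
      simp only [FKA.sh, FKA.shi, Fin.isValue, Fin.reduceEq, or_self, or_false, or_true,
        true_or, if_true, if_false, add_zero]
      omega

theorem mem_image_sh {D : Finset (ℤ × ℤ)} {v : ℤ × ℤ} : v ∈ D.image FKA.sh ↔ FKA.shi v ∈ D := by
  rw [Finset.mem_image]
  constructor
  · rintro ⟨w, hw, rfl⟩
    rw [shi_sh]
    exact hw
  · exact fun h => ⟨FKA.shi v, h, sh_shi v⟩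

theorem ArmS.dual (hQ : 0 < Q) (h : ArmS Q α C) : ArmSD Q α C := by
  intro x r R D η G hr hrR hη hD hs hG0 hG
  have h1 := h (FKA.sh x) r R (D.image FKA.sh) (du η) (fun ω => G (dui ω)) hr hrR
    (f_dual.1 η hη) ?_ ?_ (fun ω => hG0 _) ?_
  · have e1 : Ex Q (D.image FKA.sh) (du η)
        (fun ω => G (dui ω) * {ω | ArmPx (FKA.sh x) r R ω}.indicator 1 ω) =
        Ex Q D η (fun ω => G ω * {ω | ArmDx x r R ω}.indicator 1 ω) := by
      have := f_dual.2 Q D η (fun ω => G (dui ω) *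
        {ω | ArmPx (FKA.sh x) r R ω}.indicator 1 ω) hQ hη
      refine this.trans (Ex_congr fun S _ => ?_)
      simp only [dui_du]
      congr 1
      by_cases h5 : ArmDx x r R (cf D η S)
      · rw [Set.indicator_of_mem (show cf D η S ∈ {ω | ArmDx x r R ω} from h5),
          Set.indicator_of_mem (show du (cf D η S) ∈ {ω | ArmPx (FKA.sh x) r R ω} from
            arm_dual.1 h5)]
        rfl
      · rw [Set.indicator_of_notMem (show cf D η S ∉ {ω | ArmDx x r R ω} from h5),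
          Set.indicator_of_notMem (show du (cf D η S) ∉ {ω | ArmPx (FKA.sh x) r R ω} from
            fun h6 => h5 (arm_dual.2 h6))]
    have e2 : Ex Q (D.image FKA.sh) (du η) (fun ω => G (dui ω)) = Ex Q D η G := by
      have := f_dual.2 Q D η (fun ω => G (dui ω)) hQ hη
      refine this.trans (Ex_congr fun S _ => ?_)
      simp only [dui_du]
    rw [e1, e2] at h1
    exact h1
  · intro v hv hvD
    rw [mem_image_sh] at hvD
    have h3 : η (v.1 - 1, v.2) = true := hD (FKA.shi v) (ann_sh.1 hv) hvD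
    show (!(η (v.1 - 1, v.2))) = false
    rw [h3]
    rfl
  · refine hs.sh.congr fun v hv => ?_
    show (v ∈ Bq (FKA.sh x) R \ Bq (FKA.sh x) r ∧ v ∉ D.image FKA.sh) ↔
      (FKA.shi v ∈ Bq x R \ Bq x r ∧ FKA.shi v ∉ D)
    rw [mem_image_sh, ann_sh]
  · intro ω ω' h2
    refine hG _ _ fun v hv => ?_
    simp only [dui]
    congr 1
    refine h2 _ fun h3 => hv ?_
    have h4 : FKA.sh v ∈ Bq (FKA.sh x) R \ Bq (FKA.sh x) r := h3
    rw [ann_sh, shi_sh] at h4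
    exact h4

end Vale.Agent.P167.N
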