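import Vale.Agent.P167.N.Base.ArmSDef
import Vale.Agent.P167.N.Base.ArmM

/-!
# P167, the range `0 < q < 1`: arms in the presence of frozen closed squares
-/

namespace Vale.Agent.P167.N

open Finset Vale.Agent.P167 Vale.Agent.P167.FK Vale.Agent.P167.FKA Vale.Agent.P167.H635

theorem HalfPl.hp {H : Set (ℤ × ℤ)} (h : HalfPl H) : HP fun v => v ∉ H := by
  obtain ⟨c, rfl | rfl | rfl | rfl⟩ := h
  · refine ⟨c, Or.inr (Or.inl fun v => ?_)⟩
    show ¬ v.1 < c ↔ c ≤ v.1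
    exact not_lt
  · refine ⟨c, Or.inl fun v => ?_⟩
    show ¬ c ≤ v.1 ↔ v.1 < c
    exact not_le
  · refine ⟨c, Or.inr (Or.inr (Or.inr fun v => ?_))⟩
    show ¬ v.2 < c ↔ c ≤ v.2
    exact not_lt
  · refine ⟨c, Or.inr (Or.inr (Or.inl fun v => ?_))⟩
    show ¬ c ≤ v.2 ↔ v.2 < c
    exact not_le

/-- The shape of the frozen squares and the shape of the domain. -/
theorem Shp.dom {D : Finset (ℤ × ℤ)} {x : ℤ × ℤ} {r R : ℤ}
    (h : N.Shp {v | v ∈ Bq x R \ Bq x r ∧ v ∉ D} x r R) : H635.Shp D x r R := by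
  rcases h with ⟨H1, H2, h1, h2, h⟩ | ⟨l, k, h1, h⟩
  swap
  · refine Or.inr ⟨l, k, h1, fun v hv => ?_⟩
    have h3 : (v ∈ Bq x R \ Bq x r ∧ v ∉ D) ↔ InRay x l k v := h v hv
    have h4 : v ∈ Bq x R \ Bq x r := hv
    tauto
  refine Or.inl ⟨_, _, h1.hp, h2.hp, ?_⟩
  rcases h with h | h
  · refine Or.inr fun v hv => ?_
    have h3 : (v ∈ Bq x R \ Bq x r ∧ v ∉ D) ↔ (v ∈ H1 ∧ v ∈ H2) := h v hv
    have h4 : v ∈ Bq x R \ Bq x r := hv
    tauto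
  · refine Or.inl fun v hv => ?_
    have h3 : (v ∈ Bq x R \ Bq x r ∧ v ∉ D) ↔ (v ∈ H1 ∨ v ∈ H2) := h v hv
    have h4 : v ∈ Bq x R \ Bq x r := hv
    tauto

theorem ArmM.armS {Q α C : ℝ} (hQ0 : 0 < Q) (h : ArmM Q α C) : ArmS Q α C := by
  intro x r R D η G hr hrR hη hcl hs hG0 hG
  refine (Ex_mono hQ0 fun S _ => ?_).trans ((h.at (e := true) hr hrR hs.dom).ex hQ0 hη (D' := D)
    inter_subset_left hG0 (hG.mono inter_subset_right))
  refine mul_le_mul_of_nonneg_left (ind_le_of fun h' => armPx_armE hrR h' fun v hv hvD => ?_)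
    (hG0 _)
  rw [cf_out hvD]
  exact hcl v hv hvD

theorem ArmM.armSD {Q α C : ℝ} (hQ0 : 0 < Q) (h : ArmM Q α C) : ArmSD Q α C := by
  intro x r R D η G hr hrR hη hcl hs hG0 hG
  refine (Ex_mono hQ0 fun S _ => ?_).trans ((h.at (e := false) hr hrR hs.dom).ex hQ0 hη (D' := D)
    inter_subset_left hG0 (hG.mono inter_subset_right))
  refine mul_le_mul_of_nonneg_left (ind_le_of fun h' => armDx_armE hrR h' fun v hv hvD => ?_)
    (hG0 _)
  rw [cf_out hvD]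
  exact hcl v hv hvD

/-- Arms at simple frozen shapes. -/
theorem Kit.armS {Q : ℝ} (K : Kit Q) :
    ∃ α C : ℝ, 0 < α ∧ 0 < C ∧ ArmS Q α C ∧ ArmSD Q α C := by
  obtain ⟨α, C, hα, hC, h⟩ := K.armM
  exact ⟨α, C, hα, hC, h.armS K.pos, h.armSD K.pos⟩

end Vale.Agent.P167.N
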