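import Vale.Agent.P167.N.Base.Arch
import Vale.Agent.P167.N.H461.LinkW
import Vale.Agent.P167.H166Q.GDefs
import Vale.Agent.P167.H192.Q.ArcQ

/-!
# P167, the range `0 < q < 1`: arcs from the banks of an explored strand to a flat side
-/

set_option autoImplicit false

namespace Vale.Agent.P167.N

open Relation Vale.Agent.P167 Vale.Agent.P167.FK Vale.Agent.P167.FKA
open Vale.Agent.P145.FB (PStep PConn)
open Vale.Agent.P167.H318 (St)
open Vale.Agent.P167.H632 (cs cs_false pr)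
open Vale.Agent.P167.H192.TA (dF mem_dF Pw)
open Vale.Agent.P167.H192.ArcQ (ArcE AG1 CU_an pw_pconn)
open Vale.Agent.P167.H192.ArcP (past')
open Vale.Agent.P167.H704.Q (cst bk CU)
open Vale.Agent.P167.N.H461

/-- **Arcs from the banks to the side.** In a half annulus of a large ratio around the tip of an
explored strand, for all configurations off the fresh squares of the half annulus: an open path from
the left bank to the side in the east with probability at least `c`, a dual path from the right bank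
to the side in the west with probability at least `c`. -/
def ARCW (Q : ℝ) : Prop := ∃ (Λ : ℤ) (c : ℝ), 4 ≤ Λ ∧ 0 < c ∧
  ∀ (S : St) (b r R : ℤ) (ζ : Cfg), 1 ≤ r → Λ * r ≤ R → H192.ArcQ.AG1 S b r R → Good ζ →
    (∀ v, v ∉ S.F → ζ v = S.z v) →
    c ≤ Pr Q (S.F ∩ H318.UQ.An b r R) ζ {ξ | H166Q.OArcW S b r R ξ} ∧
    c ≤ Pr Q (S.F ∩ H318.UQ.An b r R) ζ {ξ | H166Q.DArcW S b r R ξ}

theorem AG1.mono {S : St} {b r R r' R' : ℤ} (H : AG1 S b r R) (h1 : r ≤ r') (h2 : R' ≤ R) :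
    AG1 S b r' R' := by
  refine ⟨H.toOk, fun y g1 g2 => H.ne y (by omega) (by omega), fun v hv => H.mem v ?_,
    fun x g1 g2 => H.not x (by omega) (by omega), fun v hv => H.po v ?_, ?_, H.cl⟩
  · obtain ⟨a1, a2, a3, a4⟩ := hv
    exact ⟨by omega, by omega, a3, by omega⟩
  · obtain ⟨a1, a2, a3, a4⟩ := hv
    exact ⟨by omega, by omega, a3, by omega⟩
  · obtain ⟨a1, a2, a3, a4⟩ := H.tip
    exact ⟨by omega, by omega, a3, by omega⟩

theorem An_mono {b r R r' R' : ℤ} (h1 : r ≤ r') (h2 : R' ≤ R) :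
    H318.UQ.An b r' R' ⊆ H318.UQ.An b r R := by
  intro v hv
  unfold H318.UQ.An at hv ⊢
  rw [Finset.mem_sdiff, H685.Q.mem_hbF, H685.Q.mem_hbF] at hv ⊢
  obtain ⟨⟨a1, a2, a3, a4⟩, h3⟩ := hv
  refine ⟨⟨by omega, by omega, a3, by omega⟩, fun h => h3 ?_⟩
  obtain ⟨b1, b2, b3, b4⟩ := h
  exact ⟨by omega, by omega, b3, by omega⟩

/-- the outside of the half annulus is connected -/
theorem out_dF {e : Bool} {b : ℤ × ℤ} {r R : ℤ} (hr : 1 ≤ r) : ∀ s ∈ Bs e (dF b r R),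
    ∀ t ∈ Bs e (dF b r R), ReflTransGen (PStep (↑(dF b r R) : Set (ℤ × ℤ))ᶜ) s t := by
  rintro s ⟨hs, v, hv, hvs⟩ t ⟨ht, w, hw, hwt⟩
  have h1 := H192.Q.conn_out (b := b) (r := r) (R := R) hr (z := s) (w := t) (by rw [hs, ht])
    (H192.Q.so_of_cor (fun h => hv (mem_dF.2 h)) hvs)
    (H192.Q.so_of_cor (fun h => hw (mem_dF.2 h)) hwt)
  refine Relation.ReflTransGen.mono (fun a b h => ⟨h.1, h.2.1, fun h' => h.2.2 ?_⟩) _ _ h1
  exact mem_dF.1 (Finset.mem_coe.1 h')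

/-- the sites of colour `e` of the west ray -/
def Wst (e : Bool) (b r R : ℤ) : Set (ℤ × ℤ) :=
  {s | s.2 = 0 ∧ b - R ≤ s.1 ∧ s.1 ≤ b - r ∧ (s.1 + s.2) % 2 = pr e}

/-- the sites of colour `e` of the east ray -/
def Est (e : Bool) (b r R : ℤ) : Set (ℤ × ℤ) :=
  {s | s.2 = 0 ∧ b + r ≤ s.1 ∧ s.1 ≤ b + R ∧ (s.1 + s.2) % 2 = pr e}

theorem Wst_Bs {e : Bool} {b r R : ℤ} : Wst e b r R ⊆ Bs e (dF ((b, 0) : ℤ × ℤ) r R) := by
  rintro ⟨s1, s2⟩ ⟨h1, h2, h3, h4⟩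
  dsimp only at h1
  subst h1
  refine ⟨h4, (s1, -1), fun h => ?_, ⟨Or.inl rfl, Or.inr rfl⟩⟩
  have := mem_dF.1 h
  simp only [H192.TA.dq, Set.mem_ofPred_eq] at this
  omega

theorem Est_Bs {e : Bool} {b r R : ℤ} : Est e b r R ⊆ Bs e (dF ((b, 0) : ℤ × ℤ) r R) := by
  rintro ⟨s1, s2⟩ ⟨h1, h2, h3, h4⟩
  dsimp only at h1
  subst h1
  refine ⟨h4, (s1, -1), fun h => ?_, ⟨Or.inl rfl, Or.inr rfl⟩⟩
  have := mem_dF.1 h
  simp only [H192.TA.dq, Set.mem_ofPred_eq] at this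
  omega

theorem arcE_sub {e : Bool} {b r R : ℤ} : ArcE e ((b, 0) : ℤ × ℤ) r R ⊆
    CE e (dF ((b, 0) : ℤ × ℤ) r R) (Wst e b r R) (Est e b r R) := by
  rintro ω ⟨x, x', h1, h2, h3, h4, h5, h6⟩
  dsimp only at h1 h2 h3 h4 h5 h6
  have hpar := H192.TA.Pw.parity h6
  dsimp only at hpar
  refine ⟨(x, 0), ⟨rfl, h1, h2, h5⟩, (x', 0), ⟨rfl, h3, h4, by dsimp only; omega⟩, ?_⟩
  refine Relation.ReflTransGen.mono (fun a b h => ⟨h.1, h.2.1, h.2.2.1, ?_⟩) _ _ h6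
  exact Finset.mem_coe.2 (mem_dF.2 h.2.2.2)

theorem CE_symm {e : Bool} {E : Finset (ℤ × ℤ)} {A B : Set (ℤ × ℤ)} :
    CE e E A B ⊆ CE e E B A := by
  rintro ω ⟨u, hu, v, hv, h⟩
  exact ⟨v, hv, u, hu, H704.Q.rtg_symm h⟩

theorem rtg_pconn {G : Set (ℤ × ℤ)} {s t : ℤ × ℤ} (h : ReflTransGen (PStep G) s t) :
    PConn G Set.univ s t := pw_pconn (Set.Subset.refl _) h

/-- **Arcs from the banks**, from internal arcs of half annuli. -/
theorem arcw_of {Q : ℝ} (hQ : 0 < Q) (hQ1 : Q ≤ 1) (h : ARCH Q) : ARCW Q := by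
  obtain ⟨Λ, c, hΛ, hc, h⟩ := h
  refine ⟨2 * Λ, c, by omega, hc, fun S b r R ζ hr hR H hg _ => ?_⟩
  set R1 := Λ * (r + 1) with hR1
  have h1 : R1 ≤ R := by nlinarith
  have hrR1 : r + 1 ≤ R1 := by nlinarith
  have H1 : AG1 S b r R1 := AG1.mono H le_rfl h1
  obtain ⟨u, hu⟩ := H1.exists_pt (by omega)
  have htp := H1.tp (by omega)
  have hp := past' htp hu
  have h7 : u (ls S.tip) = u (rs S.tip) + 1 := hp S.m le_rfl
  obtain ⟨k1, k2⟩ := h (b, 0) (r + 1) (by omega)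
  rw [← hR1] at k1 k2
  have hT : ∀ e : Bool, CU e S (dF ((b, 0) : ℤ × ℤ) (r + 1) R1) u ⊆
      S.F ∩ H318.UQ.An b r R := fun e =>
    CU_an.trans (Finset.inter_subset_inter_left (An_mono le_rfl h1))
  constructor
  · refine (k1.trans (Pr_mono hQ arcE_sub)).trans ?_
    refine (link_w (e := true) (T := dF ((b, 0) : ℤ × ℤ) (r + 1) R1) hQ hQ1 hu H1.toOk htp.hh
      htp.htip hp H1.tok (out_dF (by omega)) Wst_Bs Est_Bs ?_ ?_ hg (hT true)).trans
      (Pr_mono hQ ?_)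
    · rintro ⟨a, y⟩ ⟨g1, g2, g3, g4⟩
      dsimp only at g1 g2 g3 g4
      subst g1
      rw [H1.west (by omega) hu (by omega) g2]
      show u (rs S.tip) ≠ u (ls S.tip)
      omega
    · rintro ⟨a, y⟩ ⟨g1, g2, g3, g4⟩
      dsimp only at g1 g2 g3 g4
      subst g1
      exact H1.east (by omega) hu (by omega) g3
    · rintro ω ⟨i, hi, v, ⟨g1, g2, g3, g4⟩, hv⟩
      refine ⟨_, v, ⟨i, hi, rfl⟩, g1, by omega, by omega, ?_⟩
      refine PConn.mono ?_ subset_rfl (rtg_pconn hv)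
      rintro w ⟨hw1, hw2⟩
      exact ⟨hw1, Finset.mem_coe.2 (hT true (Finset.mem_coe.1 hw2))⟩
  · refine (k2.trans (Pr_mono hQ (arcE_sub.trans CE_symm))).trans ?_
    refine (link_w (e := false) (T := dF ((b, 0) : ℤ × ℤ) (r + 1) R1) hQ hQ1 hu H1.toOk htp.hh
      htp.htip hp H1.tok (out_dF (by omega)) Est_Bs Wst_Bs ?_ ?_ hg (hT false)).trans
      (Pr_mono hQ ?_)
    · rintro ⟨a, y⟩ ⟨g1, g2, g3, g4⟩
      dsimp only at g1 g2 g3 g4
      subst g1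
      rw [H1.east (by omega) hu (by omega) g3]
      show u (ls S.tip) ≠ u (rs S.tip)
      omega
    · rintro ⟨a, y⟩ ⟨g1, g2, g3, g4⟩
      dsimp only at g1 g2 g3 g4
      subst g1
      exact H1.west (by omega) hu (by omega) g2
    · rintro ω ⟨i, hi, v, ⟨g1, g2, g3, g4⟩, hv⟩
      refine ⟨_, v, ⟨i, hi, rfl⟩, g1, by omega, by omega, ?_⟩
      refine PConn.mono ?_ subset_rfl (rtg_pconn hv)
      rintro w ⟨hw1, hw2⟩
      rw [cs_false] at hw1
      exact ⟨hw1, Finset.mem_coe.2 (hT false (Finset.mem_coe.1 hw2))⟩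

/-- Arcs from the banks to the side. -/
theorem Kit.arcw {Q : ℝ} (K : Kit Q) : ARCW Q := arcw_of K.pos K.le K.arch

end Vale.Agent.P167.N
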