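import Vale.Agent.P167.N.H192.Q.PX
import Vale.Agent.P167.H192.Q.ArcQ

/-!
# P167, the range `0 < q < 1`: internal arcs of half annuli, the worst configuration outside
-/

set_option autoImplicit false

namespace Vale.Agent.P167.N

open Vale.Agent.P167 Vale.Agent.P167.FK Vale.Agent.P167.FKA
open Vale.Agent.P167.H192.TA (dF Xc)
open Vale.Agent.P167.H192.ArcQ (ArcE arcE_of_not)

/-- **Internal arcs of half annuli.** Everything outside of the half annulus has the colour of the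
arc: the two rays are joined by an internal path with probability at least `c`. -/
def ARCH (Q : ℝ) : Prop := ∃ (Λ : ℤ) (c : ℝ), 2 ≤ Λ ∧ 0 < c ∧ ∀ (b : ℤ × ℤ) (r : ℤ), 1 ≤ r →
  c ≤ Pr Q (dF b r (Λ * r)) eta1 (ArcE true b r (Λ * r)) ∧
  c ≤ Pr Q (dF b r (Λ * r)) eta0 (ArcE false b r (Λ * r))

/-- Internal arcs of half annuli. -/
theorem Kit.arch {Q : ℝ} (K : Kit Q) : ARCH Q := by
  obtain ⟨Λ, c, h1, h2, -, h3⟩ := N.H192.Q.pX_all K
  have key : ∀ (e : Bool) (b : ℤ × ℤ) (r : ℤ), 1 ≤ r →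
      c ≤ Pr Q (dF b r (Λ * r)) (H192.Q.etac e) (ArcE e b r (Λ * r)) := by
    intro e b r hr
    have k1 : N.H192.Q.pX Q (!e) b r (Λ * r) ≤ 1 - c := h3 (!e) b r hr
    have k2 : N.H192.Q.pX Q (!e) b r (Λ * r) =
        Pr Q (dF b r (Λ * r)) (H192.Q.etac e) (Xc (!e) b r (Λ * r)) := by
      unfold N.H192.Q.pX
      rw [Bool.not_not]
    have k3 : (Xc (!e) b r (Λ * r))ᶜ ⊆ ArcE e b r (Λ * r) := fun ω hω =>
      arcE_of_not hr (by nlinarith) hω
    have k4 := Pr_mono (Q := Q) (D := dF b r (Λ * r)) (η := H192.Q.etac e) K.pos k3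
    rw [N.H192.Q.Pr_cp (Q := Q) K.pos, compl_compl] at k4
    linarith
  exact ⟨Λ, c, h1, h2, fun b r hr => ⟨key true b r hr, key false b r hr⟩⟩

end Vale.Agent.P167.N
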