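import Vale.Agent.P167.H635.Bdy
import Vale.Agent.P167.H704.Rc

/-!
# P167, the range `0 < q < 1`: arms which use only squares of the domain

`ArmE e x r R E`: an arm of colour `e` of the annulus made of squares of `E`. `ArmM Q α C`: its
power law when `E` is, in the annulus, the intersection or the union of two coordinate half planes,
for every configuration outside of `E`. Here: formal properties, and the reduction to the crossings
of the rectangles which form `E` on the four sides of the annulus.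
-/

namespace Vale.Agent.P167.N

open Finset Vale.Agent.P145.FB Vale.Agent.P167 Vale.Agent.P167.FK Vale.Agent.P167.FKA
  Vale.Agent.P167.H632 Vale.Agent.P167.H704 Vale.Agent.P167.H635
open Relation (ReflTransGen)
open Vale.Agent.P153 Vale.Agent.P153.Topo
open Vale.Agent.P167.H871 (Pt)
open Vale.Agent.P167.H259 (f_markov)

/-- An arm of colour `e` which uses only the squares of `E`. -/
def ArmE (e : Bool) (x : ℤ × ℤ) (r R : ℤ) (E : Finset (ℤ × ℤ)) : Set Cfg :=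
  {ω | ∃ u v : ℤ × ℤ, (u.1 + u.2) % 2 = pr e ∧ nm (u - x) ≤ r ∧ R ≤ nm (v - x) ∧
    ReflTransGen (PStep (cs e ω ∩ ↑E)) u v}

/-- **Decay of the arms in the domain**, every configuration outside of the part of the domain in the
annulus. -/
def ArmM (Q α C : ℝ) : Prop := ∀ (e : Bool) (x : ℤ × ℤ) (r R : ℤ) (D : Finset (ℤ × ℤ)) (η : Cfg),
  1 ≤ r → r ≤ R → Good η → H635.Shp D x r R →
    Pr Q (D ∩ Ann x r R) η (ArmE e x r R (D ∩ Ann x r R)) ≤ C * ((r : ℝ) / R) ^ α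

variable {Q : ℝ} {e : Bool} {x : ℤ × ℤ} {r r1 R1 R : ℤ} {D D' E E' : Finset (ℤ × ℤ)} {p p' : ℝ}
  {ω η : Cfg}

/-! ### Cutting -/

theorem step_sub {F : Set (ℤ × ℤ)} {u v : ℤ × ℤ} (h : PStep (F ∩ ↑E) u v)
    (hm : (min u.1 v.1, min u.2 v.2) ∈ E') : PStep (F ∩ ↑E') u v :=
  ⟨h.1, h.2.1, h.2.2.1, Finset.mem_coe.2 hm⟩

/-- The part of a path before its first exit. -/
theorem cut_in {F : Set (ℤ × ℤ)} {u v : ℤ × ℤ} {m : ℤ}
    (h : ReflTransGen (PStep (F ∩ ↑E)) u v) (hu : nm (u - x) ≤ m) (hv : m ≤ nm (v - x)) :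
    ∃ w, nm (w - x) = m ∧ ReflTransGen (PStep (F ∩ ↑(E ∩ Bq x m))) u w := by
  induction h using ReflTransGen.head_induction_on with
  | refl => exact ⟨v, le_antisymm hu hv, ReflTransGen.refl⟩
  | @head a b hab hbv ih =>
    rcases hu.eq_or_lt with h1 | h1
    · exact ⟨a, h1, ReflTransGen.refl⟩
    · have h2 := nm_step (x := x) hab
      have hb : nm (b - x) ≤ m := by omega
      obtain ⟨w, h3, h4⟩ := ih hb
      refine ⟨w, h3, ReflTransGen.head (step_sub hab ?_) h4⟩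
      exact mem_inter.2 ⟨Finset.mem_coe.1 hab.2.2.2, step_mem hab hu hb⟩

/-- The part of a path after its last visit. -/
theorem cut_out {F : Set (ℤ × ℤ)} {u v : ℤ × ℤ} {m : ℤ}
    (h : ReflTransGen (PStep (F ∩ ↑E)) u v) (hu : nm (u - x) ≤ m) (hv : m ≤ nm (v - x)) :
    ∃ w, nm (w - x) = m ∧ ReflTransGen (PStep (F ∩ ↑(E \ Bq x m))) w v ∧
      ReflTransGen (PStep (F ∩ ↑E)) u w := by
  induction h with
  | refl => exact ⟨u, le_antisymm hu hv, ReflTransGen.refl, ReflTransGen.refl⟩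
  | @tail a b hua hab ih =>
    rcases hv.eq_or_lt with h1 | h1
    · exact ⟨b, h1.symm, ReflTransGen.refl, hua.tail hab⟩
    · have h2 := nm_step (x := x) hab
      obtain ⟨w, h3, h4, h5⟩ := ih (by omega)
      refine ⟨w, h3, h4.tail (step_sub hab ?_), h5⟩
      refine mem_sdiff.2 ⟨Finset.mem_coe.1 hab.2.2.2, fun h => ?_⟩
      have := (step_nm hab h).2
      omega

theorem armE_mono (hE : E ⊆ E') : ArmE e x r R E ⊆ ArmE e x r R E' := by
  rintro ω ⟨u, v, h1, h2, h3, h4⟩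
  refine ⟨u, v, h1, h2, h3, ReflTransGen.mono (fun a b h => ?_) u v h4⟩
  exact step_sub h (hE (Finset.mem_coe.1 h.2.2.2))

/-- Part of an arm. -/
theorem armE_sub (hr : r ≤ r1) (h1 : r1 ≤ R1) (hR : R1 ≤ R) :
    ArmE e x r R E ⊆ ArmE e x r1 R1 (E ∩ Ann x r1 R1) := by
  rintro ω ⟨u, v, h2, h3, h4, h5⟩
  obtain ⟨w, h6, h7⟩ := cut_in h5 (h3.trans (hr.trans h1)) (hR.trans h4)
  obtain ⟨w', h8, h9, h10⟩ := cut_out h7 (h3.trans hr) (h1.trans h6.ge)
  refine ⟨w', w, ?_, h8.le, h6.ge, ?_⟩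
  · rw [← h2, ← rtg_parity h10]
  · refine ReflTransGen.mono (fun a b h => step_sub h ?_) _ _ h9
    have h11 := Finset.mem_coe.1 h.2.2.2
    rw [mem_sdiff, mem_inter] at h11
    exact mem_inter.2 ⟨h11.1.1, mem_Ann.2 ⟨h11.1.2, h11.2⟩⟩

theorem armE_ann (hrR : r ≤ R) : ArmE e x r R E = ArmE e x r R (E ∩ Ann x r R) :=
  Set.Subset.antisymm (armE_sub le_rfl hrR le_rfl) (armE_mono inter_subset_left)

theorem armE_congr {ω ω' : Cfg} (h : ∀ v ∈ E, ω v = ω' v) (hω : ω ∈ ArmE e x r R E) :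
    ω' ∈ ArmE e x r R E := by
  obtain ⟨u, v, h1, h2, h3, h4⟩ := hω
  refine ⟨u, v, h1, h2, h3, ReflTransGen.mono (fun a b k => ⟨k.1, k.2.1, ?_, k.2.2.2⟩) u v h4⟩
  show ω' _ = e
  rw [← h _ (Finset.mem_coe.1 k.2.2.2)]
  exact k.2.2.1

theorem loc_armE : Loc E ((ArmE e x r R E).indicator 1) := by
  intro ω ω' h
  by_cases h1 : ω ∈ ArmE e x r R E
  · rw [Set.indicator_of_mem h1, Set.indicator_of_mem (armE_congr h h1)]
    rfl
  · rw [Set.indicator_of_notMem h1,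
      Set.indicator_of_notMem fun h2 => h1 (armE_congr (fun v hv => (h v hv).symm) h2)]

/-- The arms in the plane, the squares of the annulus off `D` having the other colour. -/
theorem arm_armE (hrR : r ≤ R) (hcl : ∀ v ∈ Ann x r R, v ∉ D → ω v = !e) {u v : ℤ × ℤ}
    (h1 : (u.1 + u.2) % 2 = pr e) (h2 : nm (u - x) ≤ r) (h3 : R ≤ nm (v - x))
    (h4 : PConn (cs e ω) {w | nm (w - x) ≤ R} u v) :
    ω ∈ ArmE e x r R (D ∩ Ann x r R) := by
  have h5 : ReflTransGen (PStep (cs e ω ∩ ↑(Bq x R))) u v := by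
    obtain ⟨h0, h4⟩ := h4
    clear h1 h2 h3
    induction h4 with
    | refl => exact ReflTransGen.refl
    | @tail a b hab hst ih =>
      have ha : a ∈ {w | nm (w - x) ≤ R} :=
        (show PConn (cs e ω) {w | nm (w - x) ≤ R} u a from ⟨h0, hab⟩).right_mem
      exact ih.tail ⟨hst.1.1, hst.1.2.1, hst.1.2.2,
        Finset.mem_coe.2 (step_mem hst.1 ha hst.2)⟩
  obtain ⟨w, h6, h7, h8⟩ := cut_out h5 h2 (hrR.trans h3)
  refine ⟨w, v, ?_, h6.le, h3, ReflTransGen.mono (fun a b k => step_sub k ?_) _ _ h7⟩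
  · rw [← rtg_parity h8, h1]
  · have h9 := Finset.mem_coe.1 k.2.2.2
    rw [mem_sdiff] at h9
    have h10 := mem_Ann.2 h9
    refine mem_inter.2 ⟨?_, h10⟩
    by_contra h11
    have h12 : ω (min a.1 b.1, min a.2 b.2) = e := k.2.2.1
    rw [hcl _ h10 h11] at h12
    cases e <;> simp at h12

theorem armPx_armE (hrR : r ≤ R) (h : ArmPx x r R ω)
    (hcl : ∀ v ∈ Ann x r R, v ∉ D → ω v = false) :
    ω ∈ ArmE true x r R (D ∩ Ann x r R) := by
  obtain ⟨u, v, h1, h2, h3, h4⟩ := h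
  exact arm_armE hrR (by simpa using hcl) (by simpa [pr] using Int.even_iff.1 h1) h2 h3 h4

theorem armDx_armE (hrR : r ≤ R) (h : ArmDx x r R ω)
    (hcl : ∀ v ∈ Ann x r R, v ∉ D → ω v = true) :
    ω ∈ ArmE false x r R (D ∩ Ann x r R) := by
  obtain ⟨u, v, h1, h2, h3, h4⟩ := h
  refine arm_armE hrR (by simpa using hcl) (by simpa [pr] using Int.odd_iff.1 h1) h2 h3 ?_
  rw [cs_false]
  exact h4

/-! ### The bound for one domain -/

/-- The bound `p`, every configuration elsewhere. -/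
def ArmMAt (Q : ℝ) (e : Bool) (x : ℤ × ℤ) (r R : ℤ) (D : Finset (ℤ × ℤ)) (p : ℝ) : Prop :=
  ∀ η : Cfg, Good η → Pr Q (D ∩ Ann x r R) η (ArmE e x r R (D ∩ Ann x r R)) ≤ p

theorem ArmMAt.congr (h : ArmMAt Q e x r R D p) (hD : D ∩ Ann x r R = D' ∩ Ann x r R) :
    ArmMAt Q e x r R D' p := by
  intro η hη
  rw [← hD]
  exact h η hη

/-- The conditional form. -/
theorem ArmMAt.ex (hQ0 : 0 < Q) (h : ArmMAt Q e x r R D p) (hη : Good η)
    (hDD : D ∩ Ann x r R ⊆ D') {G : Cfg → ℝ} (hG0 : ∀ ω, 0 ≤ G ω) (hG : Ind (D ∩ Ann x r R) G) :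
    Ex Q D' η (fun ω => G ω * (ArmE e x r R (D ∩ Ann x r R)).indicator 1 ω) ≤
      p * Ex Q D' η G :=
  markov_le f_markov f_good hQ0 hDD hη hG hG0 fun ω hω => h ω hω

theorem ArmMAt.pr (hQ0 : 0 < Q) (h : ArmMAt Q e x r R D p) (hη : Good η)
    (hDD : D ∩ Ann x r R ⊆ D') : Pr Q D' η (ArmE e x r R (D ∩ Ann x r R)) ≤ p := by
  have h1 := h.ex hQ0 hη hDD (G := fun _ => 1) (fun _ => zero_le_one) fun _ _ _ => rfl
  rw [Ex_const hQ0, mul_one] at h1
  simp only [one_mul] at h1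
  exact h1

theorem inter_ann' (h1 : r ≤ r1) (h2 : R1 ≤ R) :
    (D ∩ Ann x r R) ∩ Ann x r1 R1 = D ∩ Ann x r1 R1 := by
  rw [inter_assoc, inter_eq_right.2 (ann_mono h1 h2)]

theorem ArmMAt.ext (hQ0 : 0 < Q) (hr : r ≤ r1) (h1 : r1 ≤ R1) (hR : R1 ≤ R)
    (h : ArmMAt Q e x r1 R1 D p) : ArmMAt Q e x r R D p := by
  intro η hη
  refine (Pr_mono hQ0 (armE_sub hr h1 hR)).trans ?_
  rw [inter_ann' hr hR]
  exact h.pr hQ0 hη (inter_subset_inter_left (ann_mono hr hR))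

theorem ArmMAt.nonneg (hQ0 : 0 < Q) (h : ArmMAt Q e x r R D p) : 0 ≤ p :=
  (Pr_nonneg hQ0 _).trans (h eta0 f_good.2.1)

theorem ArmMAt.mul (hQ0 : 0 < Q) (hr : r ≤ r1) (h1 : r1 ≤ R) (h : ArmMAt Q e x r r1 D p)
    (h' : ArmMAt Q e x r1 R D p') : ArmMAt Q e x r R D (p * p') := by
  intro η hη
  set A := D ∩ Ann x r R with hA
  have e1 : ∀ ω, (ArmE e x r R A).indicator (1 : Cfg → ℝ) ω ≤
      (ArmE e x r r1 (D ∩ Ann x r r1)).indicator 1 ω *
        (ArmE e x r1 R (D ∩ Ann x r1 R)).indicator 1 ω := by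
    intro ω
    by_cases hω : ω ∈ ArmE e x r R A
    · have h2 := armE_sub (e := e) (E := A) le_rfl hr h1 hω
      have h3 := armE_sub (e := e) (E := A) hr h1 le_rfl hω
      rw [hA, inter_ann' le_rfl h1] at h2
      rw [hA, inter_ann' hr le_rfl] at h3
      rw [Set.indicator_of_mem hω, Set.indicator_of_mem h2, Set.indicator_of_mem h3]
      simp
    · rw [Set.indicator_of_notMem hω]
      exact mul_nonneg (ind_nonneg _ _) (ind_nonneg _ _)
  have h2 := h'.ex hQ0 hη (D' := A) (inter_subset_inter_left (ann_mono hr le_rfl))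
    (G := (ArmE e x r r1 (D ∩ Ann x r r1)).indicator 1) (fun ω => ind_nonneg _ _)
    (loc_armE.ind (disjoint_left.2 fun v hv hv' =>
      (mem_Ann.1 (mem_inter.1 hv').2).2 (ann_box (mem_inter.1 hv).2)))
  have h3 := h.pr hQ0 hη (D' := A) (inter_subset_inter_left (ann_mono le_rfl h1))
  have hp' := h'.nonneg hQ0
  calc Pr Q A η (ArmE e x r R A)
      ≤ Ex Q A η (fun ω => (ArmE e x r r1 (D ∩ Ann x r r1)).indicator 1 ω *
          (ArmE e x r1 R (D ∩ Ann x r1 R)).indicator 1 ω) := Ex_mono hQ0 fun S _ => e1 _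
    _ ≤ p' * Pr Q A η (ArmE e x r r1 (D ∩ Ann x r r1)) := h2
    _ ≤ p * p' := by
      rw [mul_comm p]
      exact mul_le_mul_of_nonneg_left h3 hp'

theorem armMAt_one (hQ0 : 0 < Q) : ArmMAt Q e x r R D 1 := fun η _ => by
  refine (Ex_mono hQ0 (G := fun _ => 1) fun S _ => ?_).trans (by rw [Ex_const hQ0])
  exact Set.indicator_le_self' (f := (1 : Cfg → ℝ)) (fun _ _ => zero_le_one) _

/-- The one-scale bound. -/
def OneM (Q : ℝ) : Prop := ∃ (L : ℤ) (c : ℝ), 2 ≤ L ∧ 0 < c ∧ c < 1 ∧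
  ∀ (e : Bool) (x : ℤ × ℤ) (r : ℤ) (D : Finset (ℤ × ℤ)), 1 ≤ r → H635.Shp D x r (L * r) →
    ArmMAt Q e x r (L * r) D (1 - c)

/-- **From one scale to the power law.** -/
theorem armM_of_one (hQ0 : 0 < Q) (h : OneM Q) : ∃ α C : ℝ, 0 < α ∧ 0 < C ∧ ArmM Q α C := by
  obtain ⟨L, c, hL, hc0, hc1, h⟩ := h
  obtain ⟨α, C, hα, hC, hpow⟩ := pow_decay (a := 1 - c) (by linarith) (by linarith) hL
  refine ⟨α, C, hα, hC, fun e x r R D η hr hrR hη hs => ?_⟩
  refine hpow _ r R hr hrR fun n hn => ?_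
  have key : ∀ n : ℕ, L ^ n * r ≤ R → ArmMAt Q e x r (L ^ n * r) D ((1 - c) ^ n) := by
    intro n
    induction n with
    | zero =>
      intro _
      rw [pow_zero, one_mul, pow_zero]
      exact armMAt_one hQ0
    | succ n ih =>
      intro hn
      have hLn : (1 : ℤ) ≤ L ^ n := one_le_pow₀ (by omega)
      have hrn : r ≤ L ^ n * r := by nlinarith
      have e1 : L ^ (n + 1) * r = L * (L ^ n * r) := by ring
      have hrn' : L ^ n * r ≤ L ^ (n + 1) * r := by rw [e1]; nlinarith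
      rw [pow_succ (1 - c)]
      refine ArmMAt.mul hQ0 hrn hrn' (ih (hrn'.trans hn)) ?_
      rw [e1] at hn ⊢
      exact h e x _ D (by omega) (hs.mono hrn hn)
  exact (ArmMAt.ext hQ0 le_rfl (by nlinarith [one_le_pow₀ (n := n) (by omega : (1 : ℤ) ≤ L)]) hn
    (key n hn)) η hη

/-! ### The other forms -/

variable {α C : ℝ}

theorem ind_le_of {A B : Set Cfg} (h : ω ∈ A → ω ∈ B) :
    A.indicator (1 : Cfg → ℝ) ω ≤ B.indicator 1 ω := by
  by_cases hω : ω ∈ A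
  · rw [Set.indicator_of_mem hω, Set.indicator_of_mem (h hω)]
  · rw [Set.indicator_of_notMem hω]
    exact ind_nonneg _ _

theorem ArmM.at (h : ArmM Q α C) (hr : 1 ≤ r) (hrR : r ≤ R) (hs : H635.Shp D x r R) :
    ArmMAt Q e x r R D (C * ((r : ℝ) / R) ^ α) := fun η hη => h e x r R D η hr hrR hη hs

/-- Frozen closed squares, the form of `H635`. -/
theorem ArmM.shp (hQ0 : 0 < Q) (h : ArmM Q α C) : ArmShp Q α C := by
  intro x r R D hr hrR hs η hη hcl
  refine (Ex_mono hQ0 fun S _ => ?_).trans (h true x r R D η hr hrR hη hs)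
  refine ind_le_of (fun h' => armPx_armE hrR h' fun v hv hvD => ?_)
  rw [cf_out fun h'' => hvD (mem_inter.1 h'').1]
  exact hcl v hv hvD

end Vale.Agent.P167.N
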