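import Vale.Agent.P167.N.Base.KitOf
import Vale.Agent.P167.H366.Step2

/-!
# P167, `0 < Q < 1`: the standing facts hold
-/

namespace Vale.Agent.P167.N

/-- **The standing facts hold for every `0 < Q < 1`.** -/
theorem kit {Q : ℝ} (hQ : 0 < Q) (hQ1 : Q < 1) : Kit Q := kit_of_vr hQ hQ1 (H366.vr hQ hQ1)

end Vale.Agent.P167.N
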