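import Vale.Agent.P167.N.Kit
import Vale.Agent.P167.H816.ArmV
import Vale.Agent.P167.H816.Srsw
import Vale.Agent.P167.H635.Box

/-!
# P167, `q < 1`: all fields of `Kit` from the crossing bounds of rectangles
-/

namespace Vale.Agent.P167.N

open Filter Topology Vale.Agent.P167.FK Vale.Agent.P167.FKA

variable {Q : ℝ}

/-- A ratio for which the arm probabilities are at most one half. -/
theorem exists_rat (hQ0 : 0 < Q) {α C : ℝ} (hα : 0 < α) (h1 : ArmDec Q α C)
    (h2 : ArmDecD Q α C) : ∃ L : ℤ, Vale.Agent.P167.H519.Rat Q L := by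
  have h3 : Tendsto (fun x : ℝ => C * (1 / x) ^ α) atTop (𝓝 (C * 0)) := by
    refine Tendsto.const_mul C ?_
    have := tendsto_rpow_neg_atTop hα
    refine this.congr' ?_
    filter_upwards [eventually_gt_atTop 0] with x hx
    rw [Real.rpow_neg hx.le, one_div, Real.inv_rpow hx.le]
  rw [mul_zero] at h3
  obtain ⟨x0, hx0⟩ := eventually_atTop.1 (h3.eventually (ge_mem_nhds (show (0 : ℝ) < 1 / 2 by
    norm_num)))
  obtain ⟨n, hn⟩ := exists_nat_ge x0
  refine ⟨max 2 n, le_max_left _ _, fun x r R D η G hr hR hη hD hG0 hG => ?_⟩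
  have hr0 : (0 : ℝ) < r := by exact_mod_cast (by omega : 0 < r)
  have hL : 2 ≤ max 2 (n : ℤ) := le_max_left _ _
  have hrR : r ≤ R := by nlinarith
  have hR0 : (0 : ℝ) < R := by exact_mod_cast (by omega : 0 < R)
  have h4 : C * ((r : ℝ) / R) ^ α ≤ 1 / 2 := by
    have h5 := hx0 (R / r) (by
      rw [le_div_iff₀ hr0]
      have h6 : ((n : ℤ) : ℝ) * r ≤ R := by
        have : (n : ℤ) * r ≤ R := by
          have := le_max_right 2 (n : ℤ)
          nlinarith
        exact_mod_cast this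
      push_cast at h6
      nlinarith)
    rwa [one_div_div] at h5
  have h7 : 0 ≤ Ex Q D η G := Ex_nonneg hQ0 fun _ _ => hG0 _
  exact ⟨(h1 x r R D η G hr hrR hη hD hG0 hG).trans (mul_le_mul_of_nonneg_right h4 h7),
    (h2 x r R D η G hr hrR hη hD hG0 hG).trans (mul_le_mul_of_nonneg_right h4 h7)⟩

/-- **The standing facts from the crossing bounds of rectangles.** -/
theorem kit_of_vr (hQ : 0 < Q) (hQ1 : Q < 1) (hV : Vale.Agent.P167.H816.VR Q) : Kit Q := by
  obtain ⟨α, C, hα, hC, h1, h2⟩ := Vale.Agent.P167.H816.arm_of_vr hQ hQ1.le hV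
  obtain ⟨L, hL⟩ := exists_rat hQ hα h1 h2
  exact ⟨hQ, hQ1, ⟨α, C, hα, hC, h1, h2⟩, ⟨L, hL.1, fun x r A V F ξ ξ' hr hA hVr hF0 hFV hξ hξ' =>
    Vale.Agent.P167.H635.rat_all hQ hQ1.le hL hr hA hVr hF0 hFV hξ hξ'⟩,
    Vale.Agent.P167.H816.srsw_of_vr hQ hQ1.le hV⟩

end Vale.Agent.P167.N
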